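import Vale.Agent.P269.Clos.EtaD

/-!
# Limits of meromorphic sections with prescribed divisor on degenerating nodal curves
-/

set_option linter.unusedSectionVars false

namespace Vale.Agent.P269.Clos

open Set Function Topology Filter Metric InnerProductSpace Base Cv Asymptotics
open Real (log exp)

variable {ι : Type} [Fintype ι] {M : ι → ℕ} {T P : Type*} [TopologicalSpace T]
  [NormedAddCommGroup P] [NormedSpace ℂ P] [FiniteDimensional ℂ P] {o : ι} {C : T → Set (V M)}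
  {π : T → P} {t₀ : T}
  {X : Type} [TopologicalSpace X] [T2Space X] [CompactSpace X] {R : RS X} {N : Finset (X × X)}
  {A : ι → LB R} {p : X → V M} {α κ : Type*} [Finite κ]
  {U : Ultrafilter α} {t : α → T} {χ : ι → ℤ} {x₀ : κ → X} {u : κ → ℤ} {q : α → κ → V M}
  {β : α → V M → ℂ} {z : ℂ} {c c' : V M} {x x' y : X} {al : α → ℝ}

variable (C N p U t x₀ β) in
/-- `B` is the limit of the normalised sections. -/
structure Sol (a : X → α → ℝ) (B : V M → ℂ) : Prop where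
  lc : IsLocallyConstant a
  bd : ∀ y c, Ordi N x₀ y → Orb (p y) c → Bd C U t β 1 (a y) c
  lim : ∀ y c, Ordi N x₀ y → Orb (p y) c →
    Tendsto (fun r : α × V M => β r.1 r.2 / exp (a y r.1)) (Fl C U t c) (𝓝 (B c))

theorem exp_ne (x : ℝ) : ((exp x : ℝ) : ℂ) ≠ 0 := Complex.ofReal_ne_zero.2 (Real.exp_ne_zero _)

namespace Ctx

variable (H : Ctx o C π t₀ N A p U t χ x₀ u q β)
include H

theorem exists_sol : ∃ a B, Sol C N p U t x₀ β a B := by
  obtain ⟨σ, r, j, τ, F, hA⟩ := H.exists_atl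
  obtain ⟨a, a1, a2⟩ := H.exists_a hA (fun _ => le_rfl) (H.osc_one hA)
  obtain ⟨B, hB⟩ := H.exists_lim (F := fun y r => β r.1 r.2 / exp (a y r.1)) fun y c hy e => by
    obtain ⟨σ, rfl, h1⟩ := H.ch_exists hy.1 e
    obtain ⟨g, -, -, h3⟩ := H.lim_val h1 e hy.2 (a2 y _ hy e)
    exact ⟨_, h3.self_of_nhds⟩
  exact ⟨a, B, a1, a2, hB⟩

variable {a : X → α → ℝ} {B : V M → ℂ} (S : Sol C N p U t x₀ β a B) {σ : P × ℂ → V M} {r : ℝ}
  {j : ℂ → X} {s : Prop}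
include S

theorem sol_hom (hy : Ordi N x₀ y) (e : Orb (p y) c) {s : ι → ℂ} (hs : ∀ i, s i ≠ 0) :
    B (s • c) = chz χ s * B c := by
  have := H.neBot (H.mem e)
  refine tendsto_nhds_unique ((S.lim y _ hy (e.trans ⟨s, hs, rfl⟩)).comp (H.Fl_smul hs))
    (((S.lim y _ hy e).const_mul _).congr' ((H.hom_Fl c).mono fun w b => ?_))
  simp only [comp_apply, b s hs, mul_div_assoc]

theorem sol_fc (fc : FC o C π t₀ N A p x₀ σ r j) (z1 : z ≠ 0 ∨ Ordi N x₀ (j 0))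
    (z2 : ‖z‖ < 2 * r) : Bd C U t β 1 (a (j 0)) (σ (π t₀, z)) ∧ Tendsto (fun r : α × V M =>
      β r.1 r.2 / exp (a (j 0) r.1)) (Fl C U t (σ (π t₀, z))) (𝓝 (B (σ (π t₀, z)))) := by
  obtain ⟨b1, b2, b3⟩ := (fc.ev z1 z2).self_of_nhds
  rw [← S.lc.apply_eq_of_isPreconnected isPreconnected_connectedComponent b3 mem_connectedComponent]
  exact ⟨S.bd _ _ b1 b2, S.lim _ _ b1 b2⟩

theorem sol_an (fc : FC o C π t₀ N A p x₀ σ r j) (z1 : z ≠ 0 ∨ Ordi N x₀ (j 0))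
    (z2 : ‖z‖ < 2 * r) : AnalyticAt ℂ (fun w => B (σ (π t₀, w))) z ∧ B (σ (π t₀, z)) ≠ 0 := by
  obtain ⟨g, g1, g2, g3⟩ := H.lim_val (fc.ordi z z1 z2).2 (fc.orb z z2) (fc.ordi z z1 z2).1.2
    (H.sol_fc S fc z1 z2).1
  have e : g =ᶠ[𝓝 z] fun w => B (σ (π t₀, w)) := by
    filter_upwards [g3, fc.ev z1 z2] with w b1 ⟨b2, b3, b4⟩
    have := H.neBot (H.mem b3)
    exact tendsto_nhds_unique b1 (S.lc.apply_eq_of_isPreconnected isPreconnected_connectedComponent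
      b4 mem_connectedComponent ▸ S.lim _ _ b2 b3)
  exact ⟨g1.congr e, fun e' => g2 (e.self_of_nhds.trans e')⟩

theorem sol_osc (fc : FC o C π t₀ N A p x₀ σ r j) : Osc π U t β σ r 1 := by
  have hr := fc.pos
  obtain ⟨K, hK⟩ := bd_compact (l := U) (S := closedBall 0 r \ ball 0 (r / 2))
    ((isCompact_closedBall _ _).diff isOpen_ball) (f := fun n z => |lg π t β σ n z - a (j 0) n|)
    (m := 1) (fun _ => zero_le_one) fun z hz => by
      have z1 : z ≠ 0 := fun e => hz.2 (e ▸ mem_ball_self (half_pos hr))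
      have z2 : ‖z‖ < 2 * r := by linarith [mem_closedBall_zero_iff.1 hz.1]
      obtain ⟨K, hK⟩ := ((H.sol_fc S fc (.inl z1) z2).1.2.comp_tendsto
        (H.ch_to (fc.ordi z (.inl z1) z2).2)).bound
      exact ⟨K, hK.mono fun w e => by simpa [lg] using e⟩
  refine ⟨2 * K, hK.mono fun n e z z1 z2 => ?_⟩
  have h1 := abs_le.1 (e z ⟨by simpa using z2, by simpa using z1⟩)
  have h2 := abs_le.1 (e r ⟨by simp [abs_of_pos hr], by simp [abs_of_pos hr, hr.le]⟩)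
  exact abs_le.2 ⟨by linarith, by linarith⟩

theorem sol_growth (fc : FC o C π t₀ N A p x₀ σ r j) (hG : Gr π U t β σ r s 1 al) {w : ℝ}
    (hw : Tendsto al U (𝓝 w)) :
    ∃ K, ∀ᶠ z in 𝓝[≠] 0, |log ‖B (σ (π t₀, z))‖ - w * log ‖z‖| ≤ K := by
  have hr := fc.pos
  refine H.growth fc hG (fun _ => le_rfl) (by simpa using hw) (H.sol_fc S fc (.inl
    (Complex.ofReal_ne_zero.2 hr.ne')) (by rw [norm_r hr]; linarith)).1 fun z z1 z2 => ?_
  obtain ⟨h1, h2⟩ := H.sol_fc S fc (.inl z1) (by linarith)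
  refine (h2.norm.log (norm_ne_zero_iff.2 (H.sol_an S fc (.inl z1) (by linarith)).2)).congr'
    (h1.1.mono fun w e => ?_)
  simp only [Pi.one_apply, div_one]
  rw [norm_div, Real.log_div (norm_ne_zero_iff.2 e) (norm_ne_zero_iff.2 (exp_ne _)),
    norm_r (Real.exp_pos _), Real.log_exp]

theorem sol_mean (fc : FC o C π t₀ N A p x₀ σ r j) {w : ℤ} {g : ℂ → ℂ}
    (hg : ∀ z : ℂ, ‖z‖ < 2 * r → AnalyticAt ℂ g z ∧ (z ≠ 0 → B (σ (π t₀, z)) = z ^ w * g z)) :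
    Tendsto (fun n => cau r (fun z => β n (σ (π (t n), z)) / z ^ w) 0 / exp (a (j 0) n)) U
      (𝓝 (g 0)) := by
  have hr := fc.pos
  have h1 : ∀ z ∈ sphere (0 : ℂ) r, z ≠ 0 ∧ ‖z‖ < 2 * r := fun z hz =>
    have := mem_sphere_zero_iff_norm.1 hz
    ⟨norm_pos_iff.1 (this ▸ hr), by linarith⟩
  refine (mean_lim (F := fun n z => β n (σ (π (t n), z)) / exp (a (j 0) n) / z ^ w) hr
    (fun z hz => (hg z (by linarith)).1) ?_ fun ε hε => ev_compact (isCompact_sphere _ _)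
      fun z hz => ?_).congr fun n => ?_
  · filter_upwards [ev_compact (isCompact_sphere (0 : ℂ) r) (p := fun n z =>
      AnalyticAt ℂ (fun w => β n (σ (π (t n), w))) z) fun z hz =>
        have := fc.ordi z (.inl (h1 z hz).1) (h1 z hz).2
        (H.ch_an this.2 (fc.orb z (h1 z hz).2) this.1.2).mono fun _ e => e.1] with n hn z hz
    exact (((hn z hz).continuousAt.div_const _).div (continuousAt_zpow₀ _ _ (.inl (h1 z hz).1))
      (zpow_ne_zero _ (h1 z hz).1)).continuousWithinAt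
  · obtain ⟨z1, z2⟩ := h1 z hz
    have h2 := ((((H.sol_fc S fc (.inl z1) z2).2.comp (H.ch_to (fc.ordi z (.inl z1) z2).2)).div
      ((continuousAt_zpow₀ z w (.inl z1)).tendsto.comp tendsto_snd) (zpow_ne_zero _ z1)).sub
      ((hg z z2).1.continuousAt.tendsto.comp tendsto_snd)).norm
    rw [(hg z z2).2 z1, mul_div_cancel_left₀ _ (zpow_ne_zero _ z1), sub_self, norm_zero] at h2
    exact h2.eventually_le_const hε
  · rw [div_eq_inv_mul]
    exact mean_mul hr fun z _ => by ring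

theorem sol_fac (fc : FC o C π t₀ N A p x₀ σ r j) {δ : ℂ → V M} (hδ : Nrm.Fac (br A p (j 0)) δ) :
    ∃ k φ : ℂ → ℂ, AnalyticAt ℂ k 0 ∧ k 0 ≠ 0 ∧ AnalyticAt ℂ φ 0 ∧ φ 0 = 0 ∧ deriv φ 0 ≠ 0 ∧
      ∀ᶠ z in 𝓝 0, φ z ≠ 0 ∨ Ordi N x₀ (j 0) → B (δ z) = k z * B (σ (π t₀, φ z)) := by
  obtain ⟨s, φ, h1, h2, h3, h4, h5, h6⟩ := fc.fac.symm.trans hδ
  refine ⟨fun z => chz χ (s z), φ, (an_chz h3).comp h1, chz_ne h3, h2, h4, h5, ?_⟩
  filter_upwards [h6, eventually_all.2 fun i => (continuousAt_pi.1 h1.continuousAt i).eventually_ne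
    (h3 i), h2.continuousAt.norm.eventually_lt continuousAt_const
      (show ‖φ 0‖ < 2 * r by simpa [h4] using fc.pos)] with z b1 b2 b3 b4
  rw [b1, H.sol_hom S (fc.ordi _ b4 b3).1 (fc.orb _ b3) b2]

theorem sol_ord (x : X) : ∃ w : ℤ, (Sm N x → w = extend x₀ u 0 x) ∧
    ∀ δ, Nrm.Fac (br A p x) δ → ∃ a, Ord w (B ∘ δ) a := by
  obtain ⟨σ, r, j, τ, rfl, h⟩ := H.exists_dc x
  obtain ⟨al, h1, h2, -⟩ := h.est 1 (fun _ => le_rfl) fun b => H.sol_osc S (h.fc b)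
  obtain ⟨w, hw⟩ := exists_ratio (fun _ => le_rfl) h1.1
  simp only [div_one] at hw
  obtain ⟨K, hK⟩ := H.sol_growth S (h.fc true) h1 hw
  obtain ⟨w', b, h3, h4⟩ := ord_of_growth (((h.fc true).ev0.and hK).mono fun z e =>
    have := H.sol_an S (h.fc true) (.inl e.1.1) (by linarith [e.1.2, (h.fc true).pos])
    ⟨this.1, this.2, e.2⟩)
  refine ⟨w', fun e => Int.cast_injective (α := ℝ) (h3.trans (tendsto_nhds_unique hw (by
    rw [funext (h2 e)]; exact tendsto_const_nhds))), fun δ hδ => ?_⟩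
  obtain ⟨k, φ, k1, k2, k3, k4, k5, k6⟩ := H.sol_fac S (h.fc true) hδ
  exact h4.comp k3 k4 k5 k1 k2 (k6.mono fun z e e' => e (.inl e'))

theorem sol_sec (hx : Ordi N x₀ x) : (bz A χ).Sec (fun y => B (p y)) x ∧ B (p x) ≠ 0 := by
  obtain ⟨σ, r, j, τ, rfl, h⟩ := H.exists_dc x
  have fc := h.fc true
  obtain ⟨k, φ, k1, k2, k3, k4, -, k6⟩ := H.sol_fac S fc (δ := br A p (j true 0))
    ⟨1, id, analyticAt_const, analyticAt_id, fun _ => one_ne_zero, rfl, by simp,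
      .of_forall fun z => (one_smul _ _).symm⟩
  obtain ⟨h1, h2⟩ := H.sol_an S fc (z := 0) (.inr hx) (by simpa using fc.pos)
  refine ⟨(k1.mul (h1.comp_of_eq k3 k4)).congr ?_, ?_⟩
  · have h3 : ∀ᶠ y in 𝓝 (j true 0), Ordi N x₀ y := by
      rw [← nhdsNE_sup_pure, eventually_sup]
      exact ⟨ev_ordi _, hx⟩
    filter_upwards [k6, R.ev_iff.1 h3] with z b1 b2
    refine (b1 (.inr hx)).symm.trans ?_
    rw [br_eq, H.sol_hom S b2 (Orb.refl _) fun i => inv_ne_zero ((A i).ne _ _)]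
    simp only [chz, LB.loc, bz_φ, inv_zpow, Finset.prod_inv_distrib, div_eq_inv_mul]
  · have h3 := k6.self_of_nhds (.inr hx)
    rw [br_zero, k4] at h3
    exact h3 ▸ mul_ne_zero k2 h2

theorem sol_node {σ : P × (ℂ × ℂ) → V M} {τ : P → ℂ} (hx : (x, x') ∈ N ∨ (x', x) ∈ N)
    (h : Chart o C π t₀ σ fun p => {z | z.1 * z.2 = τ p}) (hτ : AnalyticAt ℂ τ (π t₀))
    (h0 : τ (π t₀) = 0) (hf : Nrm.Fac (br A p x) fun z => σ (π t₀, (z, 0)))
    (hf' : Nrm.Fac (br A p x') fun z => σ (π t₀, (0, z))) {w w' : ℤ} {b b' : ℂ}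
    (O : Ord w (fun z => B (σ (π t₀, (z, 0)))) b) (O' : Ord w' (fun z => B (σ (π t₀, (0, z)))) b') :
    w' = -w ∧ ((∀ᶠ n in U, τ (π (t n)) = 0) → w = 0) ∧ Tendsto (fun n =>
      exp (a x' n) * b' / (exp (a x n) * b * τ (π (t n)) ^ w)) U (𝓝 1) := by
  obtain ⟨j, rfl, rfl, h1⟩ := H.dc_node hx h hτ h0 hf hf'
  obtain ⟨b0, g, g1, rfl, g2⟩ := id O
  obtain ⟨b0', g', g1', rfl, g2'⟩ := id O'
  obtain ⟨r, ⟨h1, h2⟩, h3, h3'⟩ := (h1.and ((ev_small (g1.eventually_analyticAt.and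
    (eventually_nhdsWithin_iff.1 g2))).and (ev_small (g1'.eventually_analyticAt.and
      (eventually_nhdsWithin_iff.1 g2'))))).exists
  obtain ⟨al, a1, -, a2⟩ := h1.est 1 (fun _ => le_rfl) fun b => H.sol_osc S (h1.fc b)
  obtain ⟨a2, a3, -⟩ := a2 fun e => hx.elim (fun a => (e _ a).1 rfl) fun a => (e _ a).2 rfl
  obtain ⟨v, hv⟩ := exists_ratio (fun _ => le_rfl) a1.1
  simp only [div_one] at hv
  obtain ⟨K, hK⟩ := H.sol_growth S (h1.fc true) a1 hv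
  obtain ⟨K', hK'⟩ := H.sol_growth S (h1.fc false) a2 hv.neg
  simp only [sd, h0, zero_div] at hK hK'
  have e1 := O.eq_of_growth hK
  obtain rfl : w' = -w := Int.cast_injective (α := ℝ) (by rw [O'.eq_of_growth hK', Int.cast_neg, e1])
  have e2 : (∀ᶠ n in U, τ (π (t n)) = 0) → w = 0 := fun e => Int.cast_injective (α := ℝ) (by
    rw [e1, Int.cast_zero]
    exact tendsto_nhds_unique hv (tendsto_const_nhds.congr' ((e.and a3).mono fun n a =>
      (a.2 (by rw [a.1, zero_div])).symm)))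
  have e3 : ∀ᶠ n in U, τ (π (t n)) = 0 → w = 0 := (U.em fun n => τ (π (t n)) = 0).elim
    (fun e => .of_forall fun _ _ => e2 e) fun e => e.mono fun _ a b => absurd b a
  have m1 := H.sol_mean S (h1.fc true) (w := w) (g := g)
    (by simp only [sd, h0, zero_div]; exact h3)
  have m2 := H.sol_mean S (h1.fc false) (w := -w) (g := g')
    (by simp only [sd, h0, zero_div]; exact h3')
  have m3 := (m1.mul_const (g' 0)).div (m2.mul_const (g 0)) (mul_ne_zero b0' b0)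
  rw [mul_comm, div_self (mul_ne_zero b0' b0)] at m3
  refine ⟨rfl, e2, m3.congr' ?_⟩
  filter_upwards [h2, e3, m2.eventually_ne b0'] with n c1 c2 c3
  rw [c1.mean c2] at c3
  have c4 := mul_ne_zero_iff.1 (div_ne_zero_iff.1 c3).1
  simp only [Pi.div_apply, c1.mean c2]
  field_simp [c4.1, c4.2, exp_ne]

omit S in
/-- Limits of meromorphic sections with prescribed divisor. -/
theorem eta : ∃ (lam : X → α → ℂ) (B : V M → ℂ) (w : X → ℤ), IsLocallyConstant lam ∧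
    (∀ x n, lam x n ≠ 0) ∧ (∀ k, w (x₀ k) = u k) ∧ (∀ e ∈ N, w e.2 = -w e.1) ∧
    (∀ x, Sm N x → (∀ k, x₀ k ≠ x) → w x = 0 ∧ (bz A χ).Sec (fun y => B (p y)) x ∧ B (p x) ≠ 0 ∧
      ∀ s : ι → ℂ, (∀ i, s i ≠ 0) → B (s • p x) = (∏ i, s i ^ χ i) * B (p x) ∧
        Tendsto (fun r : α × V M => β r.1 r.2 / lam x r.1) (Fl C U t (s • p x)) (𝓝 (B (s • p x))) ∧
        Usc.Lim C U t (fun n y => β n y / lam x n) (s • p x) (B (s • p x))) ∧
    (∀ x δ, Nrm.Fac (br A p x) δ → ∃ a, Ord (w x) (B ∘ δ) a) ∧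
    ∀ x x', (x, x') ∈ N ∨ (x', x) ∈ N → ∀ (σ : P × (ℂ × ℂ) → V M) (τ : P → ℂ),
      (Chart o C π t₀ σ fun p => {z | z.1 * z.2 = τ p}) → AnalyticAt ℂ τ (π t₀) → τ (π t₀) = 0 →
      (Nrm.Fac (br A p x) fun z => σ (π t₀, (z, 0))) →
      (Nrm.Fac (br A p x') fun z => σ (π t₀, (0, z))) → ∀ a a',
      Ord (w x) (fun z => B (σ (π t₀, (z, 0)))) a → Ord (w x') (fun z => B (σ (π t₀, (0, z)))) a' →
      ((∀ᶠ n in U, τ (π (t n)) = 0) → w x = 0) ∧
        Tendsto (fun n => lam x' n * a' / (lam x n * a * τ (π (t n)) ^ w x)) U (𝓝 1) := by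
  obtain ⟨a, B, S⟩ := H.exists_sol
  choose w h1 h2 using H.sol_ord S
  refine ⟨fun x n => exp (a x n), B, w, S.lc.comp fun b n => ((exp (b n) : ℝ) : ℂ),
    fun _ _ => exp_ne _, fun k => by rw [h1 _ (H.sm k), H.inj.extend_apply], fun e he => ?_,
    fun x x1 x2 => ⟨?_, (H.sol_sec S ⟨x1, x2⟩).1, (H.sol_sec S ⟨x1, x2⟩).2, fun s hs =>
      have := S.lim x _ ⟨x1, x2⟩ ⟨s, hs, rfl⟩
      ⟨H.sol_hom S ⟨x1, x2⟩ (Orb.refl _) hs, this, lim_of_Fl this⟩⟩, h2,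
    fun x x' e σ τ a1 a2 a3 a4 a5 b b' O O' => (H.sol_node S e a1 a2 a3 a4 a5 O O').2⟩
  · obtain ⟨σ, τ, a1, a2, a3, -, a4, a5⟩ := exists_node_chart H.fam H.par (.inl he)
    obtain ⟨b, O⟩ := h2 _ _ a4
    obtain ⟨b', O'⟩ := h2 _ _ a5
    exact (H.sol_node S (.inl he) a1 a2 a3 a4 a5 O O').1
  · rw [h1 x x1, extend_apply' _ _ _ fun ⟨k, hk⟩ => x2 k hk, Pi.zero_apply]

end Ctx

end Vale.Agent.P269.Clos
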