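import Vale.Agent.P269.Base.Usc

/-!
# Harmonic estimates on discs and necks, orders of meromorphic germs
-/

namespace Vale.Agent.P269.Clos

open Set Function Topology Filter Metric InnerProductSpace Real Base

variable {h : ℂ → ℝ} {ρ r m K al : ℝ} {α : Type*}

theorem harm_loc {z : ℂ} (H : HarmonicAt h z) (hm : IsLocalMax h z) :
    ∀ᶠ w in 𝓝 z, h w = h z := by
  obtain ⟨r, hr, h1⟩ := Metric.eventually_nhds_iff_ball.1 H.eventually
  obtain ⟨F, f1, f2⟩ := HarmonicOnNhd.exists_analyticOnNhd_ball_re_eq (f := h) (z := z) (R := r) h1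
  have e : ∀ᶠ w in 𝓝 z, ‖Complex.exp (F w)‖ = exp (h w) :=
    Eventually.mono (ball_mem_nhds z hr) fun w hw => by rw [Complex.norm_exp, ← f2 hw]
  have h2 := Complex.norm_eventually_eq_of_isLocalMax (f := fun w => Complex.exp (F w)) (c := z)
    (Eventually.mono (ball_mem_nhds z hr) fun w hw => (f1 w hw).differentiableAt.cexp) (by
      filter_upwards [e, hm] with w a b
      simp only [comp_apply]
      rw [a, e.self_of_nhds]
      exact exp_le_exp.2 b)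
  filter_upwards [e, h2] with w a b
  rw [a, e.self_of_nhds] at b
  exact exp_injective b

/-- The maximum principle on an annulus, or on a disc if `ρ < 0`. -/
theorem harm_max (H : ∀ z : ℂ, ρ ≤ ‖z‖ → ‖z‖ ≤ r → HarmonicAt h z)
    (B : ∀ z : ℂ, ‖z‖ = ρ ∨ ‖z‖ = r → h z ≤ m) {z : ℂ} (h1 : ρ ≤ ‖z‖) (h2 : ‖z‖ ≤ r) :
    h z ≤ m := by
  have hK : IsCompact {z : ℂ | ρ ≤ ‖z‖ ∧ ‖z‖ ≤ r} :=
    (isCompact_closedBall (0 : ℂ) r).of_isClosed_subset
      ((isClosed_le continuous_const continuous_norm).inter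
        (isClosed_le continuous_norm continuous_const)) fun z hz => by simpa using hz.2
  have hc : ContinuousOn h {z : ℂ | ρ ≤ ‖z‖ ∧ ‖z‖ ≤ r} := fun z hz =>
    (H z hz.1 hz.2).1.continuousAt.continuousWithinAt
  obtain ⟨z₁, a1, a2⟩ := hK.exists_isMaxOn ⟨z, h1, h2⟩ hc
  have hK' : IsCompact ({z : ℂ | ρ ≤ ‖z‖ ∧ ‖z‖ ≤ r} ∩ h ⁻¹' {h z₁}) :=
    hK.of_isClosed_subset (hc.preimage_isClosed_of_isClosed hK.isClosed isClosed_singleton)
      inter_subset_left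
  obtain ⟨z₂, ⟨b1, b2⟩, b3⟩ := hK'.exists_isMaxOn ⟨z₁, a1, rfl⟩ Complex.continuous_re.continuousOn
  have b2 : h z₂ = h z₁ := b2
  refine (a2 ⟨h1, h2⟩ : h z ≤ h z₁).trans (b2 ▸ B z₂ (by_contra fun hn => ?_))
  push Not at hn
  have c1 : ∀ᶠ w in 𝓝 z₂, ρ ≤ ‖w‖ ∧ ‖w‖ ≤ r :=
    ((continuous_norm.tendsto z₂).eventually_const_le (lt_of_le_of_ne b1.1 hn.1.symm)).and
      ((continuous_norm.tendsto z₂).eventually_le_const (lt_of_le_of_ne b1.2 hn.2))
  have c2 := harm_loc (H z₂ b1.1 b1.2) (c1.mono fun w hw => b2 ▸ a2 hw)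
  have c3 : Tendsto (fun ε : ℝ => z₂ + ε) (𝓝[>] 0) (𝓝 z₂) :=
    ((by fun_prop : Continuous fun ε : ℝ => z₂ + ε).tendsto' 0 z₂ (by simp)).mono_left
      nhdsWithin_le_nhds
  obtain ⟨ε, ⟨d1, d2⟩, d3⟩ := ((c3.eventually (c1.and c2)).and self_mem_nhdsWithin).exists
  have d4 : (z₂ + ε).re ≤ z₂.re := b3 ⟨d1, d2.trans b2⟩
  simp only [Complex.add_re, Complex.ofReal_re, add_le_iff_nonpos_right] at d4
  exact d4.not_gt d3

theorem harm_abs (H : ∀ z : ℂ, ρ ≤ ‖z‖ → ‖z‖ ≤ r → HarmonicAt h z)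
    (B : ∀ z : ℂ, ‖z‖ = ρ ∨ ‖z‖ = r → |h z| ≤ m) {z : ℂ} (h1 : ρ ≤ ‖z‖) (h2 : ‖z‖ ≤ r) :
    |h z| ≤ m :=
  abs_le'.2 ⟨harm_max H (fun w hw => (abs_le'.1 (B w hw)).1) h1 h2,
    harm_max (h := -h) (fun w a b => (H w a b).neg) (fun w hw => (abs_le'.1 (B w hw)).2) h1 h2⟩

theorem harm_disc (H : ∀ z : ℂ, ‖z‖ ≤ r → HarmonicAt h z) {a : ℝ}
    (B : ∀ z : ℂ, ‖z‖ = r → |h z - a| ≤ m) {z : ℂ} (h2 : ‖z‖ ≤ r) : |h z - a| ≤ m :=
  harm_abs (ρ := -1) (h := h - fun _ => a) (fun w _ b => (H w b).sub (harmonicAt_const a))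
    (fun w hw => B w (hw.resolve_left fun e => by linarith [norm_nonneg w]))
    (by linarith [norm_nonneg z]) h2

theorem harm_log {z : ℂ} (hz : z ≠ 0) (hr : 0 < r) (c : ℝ) :
    HarmonicAt (fun w : ℂ => c * log (‖w‖ / r)) z := by
  have h1 := (AnalyticAt.harmonicAt_log_norm (f := fun w : ℂ => w / r) (z := z) (by fun_prop)
    (div_ne_zero hz (Complex.ofReal_ne_zero.2 hr.ne'))).const_smul (c := c)
  convert h1 using 2 with w
  simp [abs_of_pos hr]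

/-- The three circles estimate. -/
theorem neck_est (hρ : 0 < ρ) (hr : ρ ≤ r / 2) (H : ∀ z : ℂ, ρ ≤ ‖z‖ → ‖z‖ ≤ r → HarmonicAt h z)
    {a b : ℝ} (ho : ∀ z : ℂ, r / 2 ≤ ‖z‖ → ‖z‖ ≤ r → |h z - a| ≤ m)
    (hi : ∀ z : ℂ, ‖z‖ = ρ → |h z - b| ≤ m) : ∃ al : ℝ, |al| ≤ 3 * m ∧ a - b = al * log (r / ρ) ∧
      ∀ z : ℂ, ρ ≤ ‖z‖ → ‖z‖ ≤ r → |h z - a - al * log (‖z‖ / r)| ≤ m := by
  have hr0 : 0 < r := by linarith
  have h1 : 0 < log (r / ρ) := log_pos ((one_lt_div hρ).2 (by linarith))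
  have h2 : a - b = (a - b) / log (r / ρ) * log (r / ρ) := (div_mul_cancel₀ _ h1.ne').symm
  generalize (a - b) / log (r / ρ) = al at h2
  have h3 : ∀ z : ℂ, ρ ≤ ‖z‖ → ‖z‖ ≤ r → |h z - a - al * log (‖z‖ / r)| ≤ m := fun z z1 z2 => by
    refine harm_abs (h := h - (fun _ => a) - fun w => al * log (‖w‖ / r))
      (fun w w1 w2 => ((H w w1 w2).sub (harmonicAt_const a)).sub
        (harm_log (norm_pos_iff.1 (hρ.trans_le w1)) hr0 al)) (fun w hw => ?_) z1 z2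
    simp only [Pi.sub_apply]
    rcases hw with e | e
    · rw [e, ← inv_div, log_inv, show h w - a - al * -log (r / ρ) = h w - b by linarith]
      exact hi w e
    · rw [e, div_self hr0.ne', log_one, mul_zero, sub_zero]
      exact ho w (by linarith) e.le
  refine ⟨al, ?_, h2, h3⟩
  have h4 : ‖((r / 2 : ℝ) : ℂ)‖ = r / 2 := by
    rw [Complex.norm_real, Real.norm_of_nonneg (by linarith)]
  have h5 := abs_le.1 (h3 _ (h4 ▸ hr) (by rw [h4]; linarith))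
  have h6 := abs_le.1 (ho _ h4.ge (by rw [h4]; linarith))
  rw [h4, show r / 2 / r = 2⁻¹ by field_simp, log_inv] at h5
  have h7 := log_two_gt_d9
  have h8 : |al| * log 2 ≤ 2 * m := by
    rw [← abs_of_pos (show 0 < log 2 by linarith), ← abs_mul]
    exact abs_le.2 ⟨by linarith, by linarith⟩
  nlinarith [abs_nonneg al]

theorem tendsto_log_norm : Tendsto (fun z : ℂ => log ‖z‖) (𝓝[≠] 0) atBot :=
  tendsto_log_nhdsGT_zero.comp (tendsto_norm_nhdsNE_zero)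

/-- The maximum principle on a punctured disc. -/
theorem punct_max (H : ∀ z : ℂ, z ≠ 0 → ‖z‖ ≤ r → HarmonicAt h z)
    (G : ∀ᶠ z in 𝓝[≠] 0, h z ≤ K) (B : ∀ z : ℂ, ‖z‖ = r → h z ≤ m) {z : ℂ} (h1 : z ≠ 0)
    (h2 : ‖z‖ ≤ r) : h z ≤ m := by
  have h0 : 0 < ‖z‖ := norm_pos_iff.2 h1
  have hr : 0 < r := h0.trans_le h2
  have key : ∀ ε > 0, h z + ε * log (‖z‖ / r) ≤ m := fun ε hε => by
    have a1 := tendsto_log_norm.eventually_le_atBot ((m - K) / ε + log r)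
    obtain ⟨δ, hδ, a2⟩ := (nhdsWithin_hasBasis nhds_basis_closedBall _).eventually_iff.1 (G.and a1)
    have a3 : 0 < min δ ‖z‖ := lt_min hδ h0
    refine harm_max (ρ := min δ ‖z‖) (h := h + fun w => ε * log (‖w‖ / r)) (fun w w1 w2 => ?_)
      (fun w hw => ?_) (min_le_right _ _) h2
    · have := norm_pos_iff.1 (a3.trans_le w1)
      exact (H w this w2).add (harm_log this hr ε)
    · simp only [Pi.add_apply]
      rcases hw with e | e
      · have a4 : w ≠ 0 := norm_pos_iff.1 (e ▸ a3)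
        obtain ⟨a5, a6⟩ := a2 (x := w) ⟨by simp [e], a4⟩
        rw [log_div (norm_ne_zero_iff.2 a4) hr.ne']
        have := (le_div_iff₀' hε).1 (sub_le_iff_le_add.2 a6)
        linarith
      · rw [e, div_self hr.ne', log_one, mul_zero, add_zero]
        exact B w e
  have h3 : Tendsto (fun ε : ℝ => h z + ε * log (‖z‖ / r)) (𝓝[>] 0) (𝓝 (h z)) :=
    ((by fun_prop : Continuous fun ε : ℝ => h z + ε * log (‖z‖ / r)).tendsto' 0 _
      (by simp)).mono_left nhdsWithin_le_nhds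
  exact le_of_tendsto h3 (eventually_nhdsWithin_of_forall key)

theorem eq_zero_of_bdd {c : ℝ} (G : ∀ᶠ z : ℂ in 𝓝[≠] 0, |c * log ‖z‖| ≤ K) : c = 0 := by
  by_contra hc
  have h1 := (tendsto_abs_atBot_atTop.comp tendsto_log_norm).const_mul_atTop (abs_pos.2 hc)
  obtain ⟨z, a, b⟩ := (G.and (h1.eventually_gt_atTop K)).exists
  rw [abs_mul] at a
  exact a.not_gt b

/-- `f` is meromorphic of order `w` at `0`, with leading coefficient `a`. -/
def Ord (w : ℤ) (f : ℂ → ℂ) (a : ℂ) : Prop :=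
  a ≠ 0 ∧ ∃ g, AnalyticAt ℂ g 0 ∧ g 0 = a ∧ ∀ᶠ z in 𝓝[≠] 0, f z = z ^ w * g z

variable {w w' : ℤ} {f f' : ℂ → ℂ} {a a' : ℂ}

theorem Ord.growth (O : Ord w f a) : ∃ K, ∀ᶠ z in 𝓝[≠] 0, |log ‖f z‖ - w * log ‖z‖| ≤ K := by
  obtain ⟨h0, g, h1, rfl, h2⟩ := O
  have h3 : ContinuousAt (fun z => |log ‖g z‖|) 0 :=
    (h1.continuousAt.norm.log (norm_ne_zero_iff.2 h0)).abs
  refine ⟨|log ‖g 0‖| + 1, ?_⟩
  filter_upwards [h2, self_mem_nhdsWithin, nhdsWithin_le_nhds ((h1.continuousAt.eventually_ne h0).and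
    (h3.eventually (eventually_le_nhds (lt_add_one _))))] with z a b c
  rw [a, norm_mul, norm_zpow, log_mul (zpow_ne_zero _ (norm_ne_zero_iff.2 b))
    (norm_ne_zero_iff.2 c.1), log_zpow, add_sub_cancel_left]
  exact c.2

theorem Ord.eq_of_growth (O : Ord w f a)
    (G : ∀ᶠ z in 𝓝[≠] 0, |log ‖f z‖ - al * log ‖z‖| ≤ K) : (w : ℝ) = al := by
  obtain ⟨K', h1⟩ := O.growth
  refine sub_eq_zero.1 (eq_zero_of_bdd (K := K + K') ?_)
  filter_upwards [G, h1] with z a b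
  have := abs_le.1 a
  have := abs_le.1 b
  exact abs_le.2 ⟨by linarith, by linarith⟩

theorem Ord.unique (O : Ord w f a) (O' : Ord w' f a') : w = w' :=
  let ⟨_, h1⟩ := O'.growth
  Int.cast_injective (O.eq_of_growth h1)

theorem ord_of_growth (hf : ∀ᶠ z in 𝓝[≠] 0, AnalyticAt ℂ f z ∧ f z ≠ 0 ∧
    |log ‖f z‖ - al * log ‖z‖| ≤ K) : ∃ (w : ℤ) (a : ℂ), (w : ℝ) = al ∧ Ord w f a := by
  obtain ⟨k, hk⟩ := exists_nat_gt (-al)
  let F : ℂ → ℂ := update (fun z => z ^ k * f z) 0 0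
  have e : ∀ᶠ z in 𝓝[≠] 0, F z = z ^ k * f z :=
    eventually_nhdsWithin_of_forall fun z hz => update_of_ne hz _ _
  have h1 : AnalyticAt ℂ F 0 := by
    refine Complex.analyticAt_of_differentiable_on_punctured_nhds_of_continuousAt ?_
      (continuousAt_update_same.2 ?_)
    · filter_upwards [hf, self_mem_nhdsWithin] with z a b
      exact ((differentiableAt_pow k).mul a.1.differentiableAt).congr_of_eventuallyEq
        ((eventually_ne_nhds b).mono fun y hy => update_of_ne hy _ _)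
    · have a1 := tendsto_exp_atBot.comp (tendsto_atBot_add_const_right _ K
        (tendsto_log_norm.const_mul_atBot (show 0 < k + al by linarith)))
      refine squeeze_zero_norm' ?_ a1
      filter_upwards [hf, self_mem_nhdsWithin] with z a b
      have a2 : 0 < ‖z ^ k * f z‖ := norm_pos_iff.2 (mul_ne_zero (pow_ne_zero _ b) a.2.1)
      rw [comp_apply, ← log_le_iff_le_exp a2, norm_mul, norm_pow, log_mul (pow_ne_zero _
        (norm_ne_zero_iff.2 b)) (norm_ne_zero_iff.2 a.2.1), log_pow]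
      linarith [(abs_le.1 a.2.2).2]
  obtain ⟨j, g, g1, g2, g3⟩ := h1.exists_eventuallyEq_pow_smul_nonzero_iff.2 fun h2 => by
    obtain ⟨z, ⟨a, b⟩, c, d⟩ := ((e.and (nhdsWithin_le_nhds h2)).and
      (hf.and self_mem_nhdsWithin)).exists
    exact mul_ne_zero (pow_ne_zero k d) c.2.1 (a.symm.trans b)
  have O : Ord (j - k) f (g 0) := by
    refine ⟨g2, g, g1, rfl, ?_⟩
    filter_upwards [e, nhdsWithin_le_nhds g3, self_mem_nhdsWithin] with z a b c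
    have c : z ≠ 0 := c
    rw [a, sub_zero, smul_eq_mul] at b
    rw [zpow_sub₀ c, zpow_natCast, zpow_natCast, div_mul_eq_mul_div, ← b]
    field_simp
  exact ⟨_, _, O.eq_of_growth (hf.mono fun z a => a.2.2), O⟩

theorem Ord.comp (O : Ord w f a) {φ k : ℂ → ℂ} (hφ : AnalyticAt ℂ φ 0) (h0 : φ 0 = 0)
    (h1 : deriv φ 0 ≠ 0) (hk : AnalyticAt ℂ k 0) (k0 : k 0 ≠ 0)
    (e : ∀ᶠ z in 𝓝 0, φ z ≠ 0 → f' z = k z * f (φ z)) : ∃ a', Ord w f' a' := by
  obtain ⟨a0, g, g1, rfl, g2⟩ := O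
  have d1 : AnalyticAt ℂ (dslope φ 0) 0 := by
    obtain ⟨p, hp⟩ := hφ
    exact ⟨_, hp.has_fpower_series_dslope_fslope⟩
  have d2 : dslope φ 0 0 ≠ 0 := by rwa [dslope_same]
  have d3 : ∀ z, φ z = z * dslope φ 0 z := fun z => by
    simpa [h0] using (sub_smul_dslope φ 0 z).symm
  have d4 : Tendsto φ (𝓝[≠] 0) (𝓝[≠] 0) := by
    refine tendsto_nhdsWithin_iff.2 ⟨(h0 ▸ hφ.continuousAt.tendsto :).mono_left nhdsWithin_le_nhds, ?_⟩
    filter_upwards [self_mem_nhdsWithin, nhdsWithin_le_nhds (d1.continuousAt.eventually_ne d2)]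
      with z a b
    rw [d3]
    exact mul_ne_zero a b
  refine ⟨_, ?_, fun z => k z * (dslope φ 0 z ^ w * g (φ z)),
    hk.mul ((d1.zpow d2).mul (g1.comp_of_eq hφ h0)), rfl, ?_⟩
  · exact mul_ne_zero k0 (mul_ne_zero (zpow_ne_zero _ d2) (h0.symm ▸ a0))
  · filter_upwards [nhdsWithin_le_nhds e, d4.eventually (g2.and self_mem_nhdsWithin)] with z a b
    rw [a b.2, b.1, d3 z, mul_zpow]
    ring

theorem log_near {z ζ : ℂ} (hz : z ≠ 0) (hζ : 2 * ‖ζ‖ ≤ ‖z‖) :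
    z ≠ ζ ∧ |log ‖z - ζ‖ - log ‖z‖| ≤ 1 := by
  have h0 := norm_pos_iff.2 hz
  have h1 : ‖z‖ / 2 ≤ ‖z - ζ‖ := by linarith [norm_sub_norm_le z ζ]
  have h2 : ‖z - ζ‖ ≤ 2 * ‖z‖ := by linarith [norm_sub_le z ζ]
  have h3 := log_le_log (half_pos h0) h1
  have h4 := log_le_log ((half_pos h0).trans_le h1) h2
  rw [log_div h0.ne' two_ne_zero] at h3
  rw [log_mul two_ne_zero h0.ne'] at h4
  have h5 := log_two_lt_d9
  exact ⟨fun e => by rw [e, sub_self, norm_zero] at h1; rw [e] at h0; linarith,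
    abs_le.2 ⟨by linarith, by linarith⟩⟩

/-- The estimate near a moving zero or pole. -/
theorem mark_est {ζ : ℂ} {b : ℝ} (hr : 0 < r) (hζ : 2 * ‖ζ‖ ≤ r)
    (H : ∀ z ≠ ζ, ‖z‖ ≤ r → AnalyticAt ℂ f z ∧ f z ≠ 0) (O : Ord w (fun z => f (ζ + z)) a)
    (B : ∀ z : ℂ, ‖z‖ = r → |log ‖f z‖ - b| ≤ m) {z : ℂ} (h0 : z ≠ 0) (h1 : 2 * ‖ζ‖ ≤ ‖z‖)
    (h2 : ‖z‖ ≤ r) : |log ‖f z‖ - b - w * log (‖z‖ / r)| ≤ m + 2 * |(w : ℝ)| := by
  obtain ⟨a0, g, g1, g2, g3⟩ := O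
  let F : ℂ → ℂ := update (fun z => f z / (z - ζ) ^ w) ζ a
  have f1 : ∀ y ≠ ζ, ‖y‖ ≤ r → log ‖F y‖ = log ‖f y‖ - w * log ‖y - ζ‖ := fun y a b => by
    simp only [F, update_of_ne a]
    rw [norm_div, norm_zpow, log_div (norm_ne_zero_iff.2 (H y a b).2)
      (zpow_ne_zero _ (norm_ne_zero_iff.2 (sub_ne_zero.2 a))), log_zpow]
  have f2 : ∀ y : ℂ, ‖y‖ ≤ r → HarmonicAt (fun y => log ‖F y‖) y := fun y hy => by
    rcases eq_or_ne y ζ with rfl | e
    · refine AnalyticAt.harmonicAt_log_norm (Usc.an_shift (g1.congr ?_)) (by simpa [F] using a0)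
      filter_upwards [eventually_nhdsWithin_iff.1 g3] with x hx
      rcases eq_or_ne x 0 with rfl | e
      · simp [F, g2]
      · simp only [F, update_of_ne (show y + x ≠ y by simpa using e), add_sub_cancel_left, hx e]
        field_simp
    · have e' := zpow_ne_zero w (sub_ne_zero.2 e)
      refine AnalyticAt.harmonicAt_log_norm (((H y e hy).1.div ((analyticAt_id.sub
        analyticAt_const).zpow (sub_ne_zero.2 e)) e').congr
        ((eventually_ne_nhds e).mono fun x hx => (update_of_ne hx _ _).symm)) ?_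
      simp only [F, update_of_ne e]
      exact div_ne_zero (H y e hy).2 e'
  have f3 : ∀ x : ℝ, |x| ≤ 1 → |w * x| ≤ |(w : ℝ)| := fun x hx => by
    rw [abs_mul]
    exact mul_le_of_le_one_right (abs_nonneg _) hx
  have f4 := harm_disc f2 (a := b - w * log r) (m := m + |(w : ℝ)|) (fun y hy => by
    obtain ⟨a1, a2⟩ := log_near (norm_pos_iff.1 (hy ▸ hr)) (hy ▸ hζ)
    have a3 := abs_le.1 (f3 _ a2)
    have a4 := abs_le.1 (B y hy)
    rw [f1 y a1 hy.le, hy] at *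
    exact abs_le.2 ⟨by linarith, by linarith⟩) h2
  obtain ⟨a1, a2⟩ := log_near h0 h1
  have a3 := abs_le.1 (f3 _ a2)
  rw [f1 z a1 h2] at f4
  have a4 := abs_le.1 f4
  rw [log_div (norm_ne_zero_iff.2 h0) hr.ne']
  exact abs_le.2 ⟨by linarith, by linarith⟩

theorem montel_val (U : Ultrafilter α) {g : α → ℂ → ℂ} {c : ℂ}
    (hg : ∀ᶠ q : α × ℂ in U ×ˢ 𝓝 c,
      AnalyticAt ℂ (g q.1) q.2 ∧ g q.1 q.2 ≠ 0 ∧ |log ‖g q.1 q.2‖| ≤ K) :
    ∃ G, AnalyticAt ℂ G c ∧ G c ≠ 0 ∧ ∀ᶠ z in 𝓝 c,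
      Tendsto (fun q : α × ℂ => g q.1 q.2) (U ×ˢ 𝓝 z) (𝓝 (G z)) := by
  obtain ⟨pa, ha, pb, hb, h1⟩ := eventually_prod_iff.1 hg
  obtain ⟨r, hr, h2⟩ := Metric.eventually_nhds_iff_ball.1 hb
  have h3 : ∀ z ∈ ball (0 : ℂ) r, pb (c + z) := fun z hz => h2 _ (by simpa using hz)
  obtain ⟨G, g1, g2⟩ := montel U (f := fun n z => g n (c + z)) (B := exp K) (r := r)
    (ha.mono fun n hn => ⟨fun z hz => ((h1 hn (h3 z hz)).1.differentiableAt.comp z
      (by fun_prop)).differentiableWithinAt, fun z hz =>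
      (log_le_iff_le_exp (norm_pos_iff.2 (h1 hn (h3 z hz)).2.1)).1
        (abs_le.1 (h1 hn (h3 z hz)).2.2).2⟩)
  have g3 : ∀ z ∈ ball c r,
      Tendsto (fun q : α × ℂ => g q.1 q.2) (U ×ˢ 𝓝 z) (𝓝 (G (z - c))) := fun z hz => by
    have a1 : z - c ∈ ball (0 : ℂ) r := by simpa [dist_eq_norm] using hz
    have a2 : TendstoLocallyUniformlyOn (fun (q : α × ℂ) y => g q.1 (c + y)) G (U ×ˢ 𝓝 z)
        (ball 0 r) := fun u hu x hx =>
      let ⟨t, a, b⟩ := g2 u hu x hx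
      ⟨t, a, tendsto_fst.eventually b⟩
    simpa using a2.tendsto_comp (g := fun q => q.2 - c) (g1.continuousOn _ a1) a1
      (by rw [isOpen_ball.nhdsWithin_eq a1]; exact tendsto_snd.sub_const c)
  refine ⟨fun z => G (z - c), (g1.analyticAt (ball_mem_nhds _ hr)).comp_of_eq (by fun_prop)
    (sub_self c), norm_pos_iff.1 ((exp_pos (-K)).trans_le (ge_of_tendsto
      (g3 c (mem_ball_self hr)).norm (hg.mono fun q hq => ?_))),
    Eventually.mono (ball_mem_nhds _ hr) g3⟩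
  exact (le_log_iff_exp_le (norm_pos_iff.2 hq.2.1)).1 (abs_le.1 hq.2.2).1

theorem montel_log (U : Ultrafilter α) {g : α → ℂ → ℂ} {a m : α → ℝ} {c : ℂ} (hm : ∀ n, 0 < m n)
    (hg : ∀ᶠ q : α × ℂ in U ×ˢ 𝓝 c, AnalyticAt ℂ (g q.1) q.2 ∧ g q.1 q.2 ≠ 0 ∧
      |log ‖g q.1 q.2‖ - a q.1| ≤ K * m q.1) :
    ∃ h, HarmonicAt h c ∧ ∀ᶠ z in 𝓝 c,
      Tendsto (fun q : α × ℂ => (log ‖g q.1 q.2‖ - a q.1) / m q.1) (U ×ˢ 𝓝 z) (𝓝 (h z)) := by
  obtain ⟨pa, ha, pb, hb, h1⟩ := eventually_prod_iff.1 hg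
  obtain ⟨r, hr, h2⟩ := Metric.eventually_nhds_iff_ball.1 hb
  have h3 : ∀ᶠ n in U, ∃ F : ℂ → ℂ, ∀ z ∈ ball c r, AnalyticAt ℂ F z ∧ F z ≠ 0 ∧
      log ‖F z‖ = (log ‖g n z‖ - a n) / m n := ha.mono fun n hn => by
    obtain ⟨F, f1, f2⟩ := HarmonicOnNhd.exists_analyticOnNhd_ball_re_eq (z := c) (R := r)
      (f := fun z => log ‖g n z‖) fun z hz =>
        (h1 hn (h2 z hz)).1.harmonicAt_log_norm (h1 hn (h2 z hz)).2.1
    refine ⟨fun z => Complex.exp ((F z - a n) / m n), fun z hz => ⟨?_, Complex.exp_ne_zero _, ?_⟩⟩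
    · exact (((f1 z hz).sub analyticAt_const).div analyticAt_const
        (Complex.ofReal_ne_zero.2 (hm n).ne')).cexp
    · rw [Complex.norm_exp, log_exp, Complex.div_ofReal_re, Complex.sub_re, Complex.ofReal_re]
      exact congrArg (fun x => (x - a n) / m n) (f2 hz)
  obtain ⟨F, h3⟩ := h3.choice
  obtain ⟨G, g1, g2, g3⟩ := montel_val U (g := F) (K := K) (c := c) (by
    filter_upwards [(h3.and ha).prod_mk (ball_mem_nhds _ hr)] with q hq
    obtain ⟨a1, a2, a3⟩ := hq.1.1 _ hq.2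
    refine ⟨a1, a2, ?_⟩
    rw [a3, abs_div, abs_of_pos (hm _), div_le_iff₀ (hm _)]
    exact (h1 hq.1.2 (h2 _ hq.2)).2.2)
  refine ⟨_, g1.harmonicAt_log_norm g2, ?_⟩
  filter_upwards [g3, g1.continuousAt.eventually_ne g2, ball_mem_nhds _ hr] with z a1 a2 a3
  refine (a1.norm.log (norm_ne_zero_iff.2 a2)).congr' ?_
  filter_upwards [h3.prod_mk (isOpen_ball.mem_nhds a3)] with q b using (b.1 _ b.2).2.2

theorem ev_compact {Y : Type*} [TopologicalSpace Y] {l : Filter α} {S : Set Y} (hS : IsCompact S)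
    {p : α → Y → Prop} (hp : ∀ y ∈ S, ∀ᶠ q : α × Y in l ×ˢ 𝓝 y, p q.1 q.2) :
    ∀ᶠ n in l, ∀ y ∈ S, p n y := by
  obtain ⟨pa, ha, pb, hb, h1⟩ := eventually_prod_iff.1
    (hS.mem_prod_nhdsSet_of_forall (s := {q | p q.1 q.2}) hp)
  exact ha.mono fun n hn y hy => h1 hn (hb.self_of_nhdsSet y hy)

theorem bd_compact {Y : Type*} [TopologicalSpace Y] {l : Filter α} {S : Set Y} (hS : IsCompact S)
    {f : α → Y → ℝ} {m : α → ℝ} (hm : ∀ n, 0 ≤ m n)
    (hp : ∀ y ∈ S, ∃ K, ∀ᶠ q : α × Y in l ×ˢ 𝓝 y, f q.1 q.2 ≤ K * m q.1) :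
    ∃ K, ∀ᶠ n in l, ∀ y ∈ S, f n y ≤ K * m n := by
  refine hS.induction_on (p := fun S => ∃ K, ∀ᶠ n in l, ∀ y ∈ S, f n y ≤ K * m n) ⟨0, by simp⟩
    (fun s t e ⟨K, hK⟩ => ⟨K, hK.mono fun n a y b => a y (e b)⟩) ?_ fun y hy => ?_
  · rintro s t ⟨K, hK⟩ ⟨K', hK'⟩
    refine ⟨max K K', (hK.and hK').mono fun n a y b => b.elim (fun c => (a.1 y c).trans ?_)
      fun c => (a.2 y c).trans ?_⟩
    exacts [mul_le_mul_of_nonneg_right (le_max_left _ _) (hm n),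
      mul_le_mul_of_nonneg_right (le_max_right _ _) (hm n)]
  · obtain ⟨K, hK⟩ := hp y hy
    obtain ⟨pa, ha, pb, hb, h1⟩ := eventually_prod_iff.1 hK
    exact ⟨_, nhdsWithin_le_nhds hb, K, ha.mono fun n a z b => h1 a b⟩

theorem mean_disc (hr : 0 < r) (hf : ∀ z : ℂ, ‖z‖ ≤ r → AnalyticAt ℂ f z) : cau r f 0 = f 0 := by
  rw [cau, Complex.circleIntegral_sub_center_inv_smul_of_differentiable_on_off_countable hr
    countable_empty (fun z hz => (hf z (by simpa using hz)).continuousAt.continuousWithinAt)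
    fun z hz => (hf z (le_of_lt (by simpa using hz.1))).differentiableAt,
    inv_smul_smul₀ Complex.two_pi_I_ne_zero]

theorem mean_neck {τ : ℂ} (hτ : τ ≠ 0) (hr : 0 < r) (h1 : ‖τ‖ / r ≤ r)
    (hf : ∀ z : ℂ, ‖τ‖ / r ≤ ‖z‖ → ‖z‖ ≤ r → AnalyticAt ℂ f z) :
    cau r f 0 = cau r (fun v => f (τ / v)) 0 := by
  rw [cau, cau,
    Complex.circleIntegral_sub_center_inv_smul_eq_of_differentiable_on_annulus_off_countable
      (div_pos (norm_pos_iff.2 hτ) hr) h1 countable_empty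
      (fun z hz => (hf z (by simpa using hz.2) (by simpa using hz.1)).continuousAt.continuousWithinAt)
      fun z hz => (hf z (le_of_lt (by simpa using hz.1.2))
        (le_of_lt (by simpa using hz.1.1))).differentiableAt]
  simp only [sub_zero]
  rw [circle_subst hτ hr]

theorem mean_mul (hr : 0 < r) {c : ℂ} (e : ∀ z : ℂ, ‖z‖ = r → f z = c * f' z) :
    cau r f 0 = c * cau r f' 0 := by
  have h1 : (∮ z in C(0, r), (z - 0)⁻¹ • f z) = c • ∮ z in C(0, r), (z - 0)⁻¹ • f' z := by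
    rw [← circleIntegral.integral_smul]
    refine circleIntegral.integral_congr hr.le fun z hz => ?_
    simp only [e z (by simpa using hz), smul_eq_mul]
    ring
  rw [cau, cau, h1, smul_comm, smul_eq_mul]

theorem mean_lim {l : Filter α} {F : α → ℂ → ℂ} (hr : 0 < r)
    (hf : ∀ z : ℂ, ‖z‖ ≤ r → AnalyticAt ℂ f z) (hF : ∀ᶠ n in l, ContinuousOn (F n) (sphere 0 r))
    (H : ∀ ε > 0, ∀ᶠ n in l, ∀ z ∈ sphere (0 : ℂ) r, ‖F n z - f z‖ ≤ ε) :
    Tendsto (fun n => cau r (F n) 0) l (𝓝 (f 0)) := by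
  have hi : ∀ g : ℂ → ℂ, ContinuousOn g (sphere 0 r) →
      CircleIntegrable (fun z => (z - 0)⁻¹ • g z) 0 r := fun g hg =>
    (((continuousOn_id.sub continuousOn_const).inv₀ fun z hz e => by
      rw [show z = 0 from sub_eq_zero.1 e] at hz
      simp [hr.ne] at hz).smul hg).circleIntegrable hr.le
  refine Metric.tendsto_nhds.2 fun ε hε => ?_
  filter_upwards [hF, H (ε / 3) (by positivity)] with n a b
  have h1 := norm_cau_le hr (f := fun z => F n z - f z) b (w := 0) (by simp; positivity)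
  have h2 : cau r (fun z => F n z - f z) 0 = cau r (F n) 0 - cau r f 0 := by
    simp only [cau, smul_sub]
    rw [circleIntegral.integral_sub (hi _ a) (hi _ fun z hz =>
      (hf z (le_of_eq (by simpa using hz))).continuousAt.continuousWithinAt), smul_sub]
  rw [h2, mean_disc hr hf] at h1
  rw [dist_eq_norm]
  linarith

/-- `f`, `f'` are the two coordinate expressions of a nowhere vanishing function on a neck. -/
structure Neck (τ : ℂ) (r : ℝ) (f f' : ℂ → ℂ) : Prop where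
  pos : 0 < r
  le : ‖τ‖ / r ≤ r / 2
  an : ∀ z : ℂ, ‖z‖ ≤ r → ‖τ‖ / r ≤ ‖z‖ → (z ≠ 0 ∨ τ = 0) →
    (AnalyticAt ℂ f z ∧ f z ≠ 0) ∧ AnalyticAt ℂ f' z ∧ f' z ≠ 0
  eq : ∀ z ≠ 0, τ ≠ 0 → f' z = f (τ / z)
  eq0 : τ = 0 → f' 0 = f 0

theorem Neck.est {τ : ℂ} (H : Neck τ r f f') {a b : ℝ}
    (ho : ∀ z : ℂ, r / 2 ≤ ‖z‖ → ‖z‖ ≤ r → |log ‖f z‖ - a| ≤ m ∧ |log ‖f' z‖ - b| ≤ m) :
    ∃ al : ℝ, |al| ≤ 3 * m ∧ (τ = 0 → al = 0) ∧ |a - b + al * log ‖τ / r ^ 2‖| ≤ 2 * m ∧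
      ∀ z ≠ 0, ‖τ‖ / r ≤ ‖z‖ → ‖z‖ ≤ r → |log ‖f z‖ - a - al * log (‖z‖ / r)| ≤ m ∧
        |log ‖f' z‖ - b - -al * log (‖z‖ / r)| ≤ m := by
  have hr := H.pos
  rcases eq_or_ne τ 0 with rfl | h0
  · have h1 := fun z hz => H.an z hz (by simp) (.inr rfl)
    have h2 := fun z => harm_disc (z := z) (fun z hz => (h1 z hz).1.1.harmonicAt_log_norm
      (h1 z hz).1.2) fun z hz => (ho z (by linarith) hz.le).1
    have h3 := fun z => harm_disc (z := z) (fun z hz => (h1 z hz).2.1.harmonicAt_log_norm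
      (h1 z hz).2.2) fun z hz => (ho z (by linarith) hz.le).2
    have h4 := h2 0 (by simpa using hr.le)
    have h5 := abs_le.1 (h3 0 (by simpa using hr.le))
    rw [H.eq0 rfl] at h5
    refine ⟨0, by rw [abs_zero]; linarith [abs_nonneg (log ‖f 0‖ - a)], fun _ => rfl, ?_,
      fun z _ _ hz => by simpa using ⟨h2 z hz, h3 z hz⟩⟩
    have := abs_le.1 h4
    exact abs_le.2 ⟨by linarith, by linarith⟩
  have h1 := norm_pos_iff.2 h0
  have hρ := div_pos h1 hr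
  obtain ⟨al, a1, a2, a3⟩ := neck_est hρ H.le (h := fun z => log ‖f z‖) (b := b) (fun z z1 z2 =>
    have := (H.an z z2 z1 (.inl (norm_pos_iff.1 (hρ.trans_le z1)))).1
    this.1.harmonicAt_log_norm this.2) (fun z z1 z2 => (ho z z1 z2).1) fun z hz => by
      have b1 : ‖τ / z‖ = r := by rw [norm_div, hz]; field_simp
      have b2 := (ho _ (by linarith) b1.le).2
      rwa [H.eq _ (norm_pos_iff.1 (b1 ▸ hr)) h0, div_div_cancel₀ h0] at b2
  rw [log_div hr.ne' hρ.ne', log_div h1.ne' hr.ne'] at a2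
  refine ⟨al, a1, fun e => absurd e h0, ?_, fun z z0 z1 z2 => ⟨a3 z z1 z2, ?_⟩⟩
  · rw [norm_div, norm_pow, Complex.norm_real, Real.norm_of_nonneg hr.le,
      log_div h1.ne' (by positivity), log_pow, a2]
    convert (show |(0 : ℝ)| ≤ 2 * m by rw [abs_zero]; linarith [abs_nonneg al]) using 2
    push_cast
    ring
  · have b0 := norm_pos_iff.2 z0
    have b1 := a3 (τ / z) (by rw [norm_div]; gcongr) (by
      rw [norm_div, div_le_comm₀ b0 hr]; exact z1)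
    rw [norm_div, log_div (by positivity) hr.ne', log_div h1.ne' b0.ne'] at b1
    rw [H.eq z z0 h0, log_div b0.ne' hr.ne']
    convert b1 using 2
    linarith

theorem Neck.mean {τ : ℂ} (H : Neck τ r f f') (hw : τ = 0 → w = 0) :
    cau r (fun z => f' z / z ^ (-w)) 0 = τ ^ w * cau r (fun z => f z / z ^ w) 0 := by
  have hr := H.pos
  rcases eq_or_ne τ 0 with rfl | h0
  · have h1 := fun z hz => H.an z hz (by simp) (.inr rfl)
    simp only [hw rfl, neg_zero, zpow_zero, div_one, one_mul]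
    rw [mean_disc hr fun z hz => (h1 z hz).1.1, mean_disc hr fun z hz => (h1 z hz).2.1, H.eq0 rfl]
  have hρ := div_pos (norm_pos_iff.2 h0) hr
  rw [mean_neck h0 hr (by linarith [H.le]) (f := fun z => f z / z ^ w) fun z z1 z2 =>
    have := norm_pos_iff.1 (hρ.trans_le z1)
    (H.an z z2 z1 (.inl this)).1.1.div (analyticAt_id.zpow this) (zpow_ne_zero _ this)]
  refine mean_mul hr fun z hz => ?_
  have h1 : z ≠ 0 := norm_pos_iff.1 (hz ▸ hr)
  rw [H.eq z h1 h0, div_zpow, zpow_neg]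
  field_simp

theorem isPreconnected_punct (hr : 0 < r) : IsPreconnected {z : ℂ | z ≠ 0 ∧ ‖z‖ < r} := by
  have : {z : ℂ | z ≠ 0 ∧ ‖z‖ < r} = Complex.exp '' {w | w.re < log r} := by
    ext z
    refine ⟨fun hz => ⟨Complex.log z, ?_, Complex.exp_log hz.1⟩, ?_⟩
    · rw [mem_ofPred_eq, Complex.log_re]
      exact log_lt_log (norm_pos_iff.2 hz.1) hz.2
    · rintro ⟨w, hw, rfl⟩
      exact ⟨Complex.exp_ne_zero _, by rw [Complex.norm_exp]; exact (lt_log_iff_exp_lt hr).1 hw⟩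
  rw [this]
  exact (convex_halfSpace_re_lt _).isPreconnected.image _ Complex.continuous_exp.continuousOn

end Vale.Agent.P269.Clos
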