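import Vale.Agent.P269.Clos.EtaA
import Vale.Agent.P269.Base.Crv
import Vale.Agent.P269.Cv.Dict
import Vale.Agent.P269.Cv.Norm

/-!
# Meromorphic sections on the fibres of a family of nodal curves: local estimates in charts
-/

set_option linter.unusedSectionVars false

namespace Vale.Agent.P269.Clos

open Set Function Topology Filter Metric InnerProductSpace Base Cv Asymptotics
open Real (log exp log_mul log_div log_exp exp_pos exp_ne_zero)

section Surf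

variable {X : Type} [TopologicalSpace X] (R : RS X)
include R

theorem ev_comp (x : X) : ∀ᶠ y in 𝓝 x, y ∈ connectedComponent x := by
  obtain ⟨r, hr, h⟩ := Metric.eventually_nhds_iff_ball.1 (R.tgt_nhds x)
  rw [R.ev_iff]
  filter_upwards [ball_mem_nhds _ hr] with z hz
  exact ((convex_ball (0 : ℂ) r).isPreconnected.image (R.i x) fun w hw =>
    (R.contAt_i (h w hw)).continuousWithinAt).subset_connectedComponent
      ⟨0, mem_ball_self hr, R.i_zero x⟩ ⟨z, hz, rfl⟩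

/-- Functions that are locally constant off a discrete set are constant on the components. -/
theorem const_of_punct {S : X → Prop} (hS : ∀ x, ∀ᶠ y in 𝓝[≠] x, S y) {Y : Type*} {f : X → Y}
    (hf : ∀ x, S x → ∀ᶠ y in 𝓝 x, f y = f x) {x y : X} (hx : S x) (hy : S y)
    (e : y ∈ connectedComponent x) : f y = f x := by
  have h1 : ∀ x, ∃ b, ∀ᶠ y in 𝓝[≠] x, f y = b := fun x => by
    obtain ⟨r, hr, h⟩ := Metric.eventually_nhds_iff_ball.1
      ((R.tgt_nhds x).and (eventually_nhdsWithin_iff.1 (R.ev_ne_iff.1 (hS x))))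
    have h2 : ((r / 2 : ℝ) : ℂ) ∈ {z : ℂ | z ≠ 0 ∧ ‖z‖ < r} :=
      ⟨Complex.ofReal_ne_zero.2 (by positivity), by
        rw [Complex.norm_real, Real.norm_of_nonneg (by positivity)]; linarith⟩
    refine ⟨f (R.i x (r / 2 : ℝ)), R.ev_ne_iff.2 (eventually_nhdsWithin_iff.2 ?_)⟩
    filter_upwards [ball_mem_nhds _ hr] with z z1 z2
    refine (isPreconnected_punct hr).induction₂' (fun a b => f (R.i x a) = f (R.i x b))
      (fun a ha => nhdsWithin_le_nhds ?_) (fun _ _ _ _ _ _ a b => a.trans b)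
      ⟨z2, by simpa using z1⟩ h2
    obtain ⟨a1, a2⟩ := h a (by simpa using ha.2)
    exact ((R.contAt_i a1).eventually (hf _ (a2 ha.1))).mono fun b hb => ⟨hb.symm, hb⟩
  choose g hg using h1
  have h2 : ∀ x {b}, (∀ᶠ y in 𝓝 x, f y = b) → g x = b := fun x b h => by
    have := R.neBot x
    obtain ⟨y, a1, a2⟩ := ((hg x).and (nhdsWithin_le_nhds h)).exists
    exact a1.symm.trans a2
  have h3 : IsLocallyConstant g := (IsLocallyConstant.iff_eventually_eq _).2 fun x => by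
    filter_upwards [(eventually_nhdsWithin_iff.1 (hg x)).eventually_nhds,
      eventually_nhdsWithin_iff.1 ((hS x).and (hg x))] with y a1 a2
    rcases eq_or_ne y x with rfl | e
    · rfl
    · exact (h2 y (hf y (a2 e).1)).trans (a2 e).2
  rw [← h2 x (hf x hx), ← h2 y (hf y hy)]
  exact h3.apply_eq_of_isPreconnected isPreconnected_connectedComponent e mem_connectedComponent

end Surf

variable {ι : Type} [Fintype ι] {M : ι → ℕ} {T P E : Type*} [TopologicalSpace T]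
  [NormedAddCommGroup P] [NormedSpace ℂ P] [FiniteDimensional ℂ P] [NormedAddCommGroup E]
  [NormedSpace ℂ E] [FiniteDimensional ℂ E] {o : ι} {C : T → Set (V M)} {π : T → P} {t₀ : T}
  {X : Type} [TopologicalSpace X] [T2Space X] [CompactSpace X] {R : RS X} {N : Finset (X × X)}
  {A : ι → LB R} {p : X → V M} {α κ : Type*} [Finite κ]

theorem ev_not_orb {c c' : V M} (hc : ∀ i, c i ≠ 0) (hc' : ∀ i, c' i ≠ 0) (h : ¬Orb c c') :
    ∀ᶠ q : V M × V M in 𝓝 (c, c'), ¬Orb q.1 q.2 := by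
  choose j hj using fun i => Function.ne_iff.1 (hc i)
  obtain ⟨i, k, hk⟩ : ∃ i k, c' i k * c i (j i) ≠ c i k * c' i (j i) := by
    by_contra! h1
    exact h (Orb.of_smul hc' (s := fun i => c' i (j i) / c i (j i))
      (funext fun i => Dict.eq_smul_of_minor (hj i) (h1 i)))
  have h2 : ∀ᶠ q : V M × V M in 𝓝 (c, c'), q.2 i k * q.1 i (j i) ≠ q.1 i k * q.2 i (j i) :=
    (isClosed_eq (by fun_prop) (by fun_prop)).isOpen_compl.mem_nhds hk
  refine h2.mono fun q hq ⟨s, _, e⟩ => hq ?_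
  simp only [e, Dict.smul_ap, Pi.smul_apply, smul_eq_mul]
  ring

/-- The character of the torus. -/
noncomputable def chz (χ : ι → ℤ) (s : ι → ℂ) : ℂ := ∏ i, s i ^ χ i

theorem chz_ne {χ : ι → ℤ} {s : ι → ℂ} (hs : ∀ i, s i ≠ 0) : chz χ s ≠ 0 :=
  Finset.prod_ne_zero_iff.2 fun i _ => zpow_ne_zero _ (hs i)

theorem an_chz {χ : ι → ℤ} {s : ι → ℂ} (hs : ∀ i, s i ≠ 0) : AnalyticAt ℂ (chz χ) s :=
  Finset.analyticAt_fun_prod _ fun i _ =>
    ((ContinuousLinearMap.proj i : (ι → ℂ) →L[ℂ] ℂ).analyticAt _).zpow (hs i)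

/-- `β` is a meromorphic section of `O(χ)` with divisor exactly `∑ u k • q k`. -/
structure Mer (o : ι) (C : Set (V M)) (χ : ι → ℤ) (q : κ → V M) (u : κ → ℤ) (β : V M → ℂ) :
    Prop where
  hom : ∀ s : ι → ℂ, (∀ i, s i ≠ 0) → ∀ c ∈ C, β (s • c) = (∏ i, s i ^ χ i) * β c
  reg : ∀ γ, IsBranch o C γ → (∀ k, ¬Orb (q k) (γ 0)) → AnalyticAt ℂ (β ∘ γ) 0 ∧ β (γ 0) ≠ 0
  ord : ∀ k γ, IsBranch o C γ → Orb (q k) (γ 0) → ∃ a, Ord (u k) (β ∘ γ) a

variable (o C π t₀ N A p) in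
/-- The setting. -/
structure Ctx (U : Ultrafilter α) (t : α → T) (χ : ι → ℤ) (x₀ : κ → X) (u : κ → ℤ)
    (q : α → κ → V M) (β : α → V M → ℂ) : Prop where
  fam : LocFam o C π t₀
  par : Par o (C t₀) N A p
  lim : Tendsto t U (𝓝 t₀)
  inj : Injective x₀
  sm : ∀ k, Sm N (x₀ k)
  qlim : ∀ k, ∃ c, Orb (p (x₀ k)) c ∧ Tendsto (fun n => q n k) U (𝓝 c)
  mer : ∀ᶠ n in U, (∀ k, q n k ∈ C (t n)) ∧ Mer o (C (t n)) χ (q n) u (β n)

/-- The points of the nearby fibres that are close to `c`. -/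
noncomputable def Fl (C : T → Set (V M)) (U : Filter α) (t : α → T) (c : V M) : Filter (α × V M) :=
  U ×ˢ 𝓝 c ⊓ 𝓟 {q | q.2 ∈ C (t q.1)}

/-- neither a node nor a marked point -/
def Ordi (N : Finset (X × X)) (x₀ : κ → X) (x : X) : Prop := Sm N x ∧ ∀ k, x₀ k ≠ x

variable (o C π t₀) in
/-- `σ` is a chart of a family of discs near the value `z` of the coordinate -/
def ChAt (σ : P × ℂ → V M) (z : ℂ) : Prop :=
  Chart o C π t₀ (fun r => σ (r.1, z + r.2)) fun _ => univ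

variable {U : Ultrafilter α} {t : α → T} {χ : ι → ℤ} {x₀ : κ → X} {u : κ → ℤ} {q : α → κ → V M}
  {β : α → V M → ℂ} {σ : P × ℂ → V M} {z : ℂ} {c c' : V M} {x y : X} {m a a' : α → ℝ}

theorem tendsto_Fl {l : Filter α} {Y : Type*} {F : Filter Y} {f : Y → α × V M} :
    Tendsto f F (Fl C l t c) ↔ Tendsto (fun y => (f y).1) F l ∧
      Tendsto (fun y => (f y).2) F (𝓝 c) ∧ ∀ᶠ y in F, (f y).2 ∈ C (t (f y).1) := by
  simp only [Fl, tendsto_inf, tendsto_prod_iff', tendsto_principal, and_assoc, mem_ofPred_eq]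

theorem Fl_spec {l : Filter α} : Tendsto Prod.fst (Fl C l t c) l ∧
    Tendsto Prod.snd (Fl C l t c) (𝓝 c) ∧ ∀ᶠ q in Fl C l t c, q.2 ∈ C (t q.1) :=
  tendsto_Fl.1 tendsto_id

theorem Fl_ev {l : Filter α} {s : α × V M → Prop} (h : ∀ᶠ q in Fl C l t c, s q) :
    ∀ᶠ c' in 𝓝 c, ∀ᶠ q in Fl C l t c', s q := by
  simp only [Fl, eventually_inf_principal, eventually_prod_iff] at h ⊢
  obtain ⟨pa, ha, pb, hb, h1⟩ := h
  exact hb.eventually_nhds.mono fun c' hc => ⟨pa, ha, pb, hc, h1⟩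

theorem lim_of_Fl {l : Filter α} {s : α → V M → ℂ} {w : ℂ}
    (h : Tendsto (fun q : α × V M => s q.1 q.2) (Fl C l t c) (𝓝 w)) : Usc.Lim C l t s c w :=
  fun y h1 h2 => h.comp (f := fun n => (n, y n)) (tendsto_Fl.2 ⟨tendsto_id, h1, h2⟩)

theorem ev_ordi (x : X) : ∀ᶠ y in 𝓝[≠] x, Ordi N x₀ y := by
  have h : ∀ x', ∀ᶠ y in 𝓝[≠] x, x' ≠ y := fun x' => by
    rcases eq_or_ne x x' with rfl | e
    · exact eventually_nhdsWithin_of_forall fun y hy => Ne.symm hy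
    · exact nhdsWithin_le_nhds ((eventually_ne_nhds e).mono fun y hy => hy.symm)
  exact ((eventually_all_finset _).2 fun n _ => (h n.1).and (h n.2)).and
    (eventually_all.2 fun k => h _)

namespace Ctx

variable (H : Ctx o C π t₀ N A p U t χ x₀ u q β)
include H

theorem cont : ContinuousAt π t₀ := H.fam.cont.self_of_nhds

theorem ne (hc : c ∈ C t₀) : ∀ i, c i ≠ 0 := H.par.ne_zero c hc

theorem mem (h : Orb (p x) c) : c ∈ C t₀ := H.fam.nod.orb (H.par.mem x) h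

theorem rel (h : Orb (p x) c) (h' : Orb (p y) c) : x = y ∨ (x, y) ∈ N ∨ (y, x) ∈ N :=
  let ⟨s, _, e⟩ := h.trans h'.symm
  H.par.inj x y s e

theorem eq_of_sm (hx : Sm N x) (h : Orb (p x) c) (h' : Orb (p y) c) : x = y := by
  rcases H.rel h h' with e | e | e
  exacts [e, absurd rfl (hx _ e).1, absurd rfl (hx _ e).2]

theorem neBot (hc : c ∈ C t₀) : (Fl C U t c).NeBot := by
  obtain ⟨y, h1, h2⟩ := H.fam.exists_approx hc
  exact (tendsto_Fl.2 ⟨tendsto_id, h1.comp H.lim, H.lim.eventually h2⟩ :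
    Tendsto (fun n => (n, y (t n))) U _).neBot

theorem Fl_smul {s : ι → ℂ} (hs : ∀ i, s i ≠ 0) :
    Tendsto (fun q : α × V M => (q.1, s • q.2)) (Fl C U t c) (Fl C U t (s • c)) :=
  tendsto_Fl.2 ⟨Fl_spec.1, tendsto_smul tendsto_const_nhds Fl_spec.2.1, by
    filter_upwards [(H.lim.comp Fl_spec.1).eventually H.fam.cone, Fl_spec.2.2] with q a b
      using a s hs _ b⟩

theorem hom_Fl (c : V M) : ∀ᶠ q in Fl C U t c, ∀ s : ι → ℂ, (∀ i, s i ≠ 0) →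
    β q.1 (s • q.2) = chz χ s * β q.1 q.2 := by
  filter_upwards [Fl_spec.1.eventually H.mer, Fl_spec.2.2] with q a b s hs using a.2.hom s hs _ b

/-- the sections are holomorphic and do not vanish near a point that is not marked -/
theorem reg {σ : P × E → V M} {Y : P → Set E} (h : Chart o C π t₀ σ Y)
    (hx : Orb (p x) (σ (π t₀, 0))) (hk : ∀ k, x₀ k ≠ x) :
    ∀ᶠ r : α × E in U ×ˢ 𝓝 0, ∀ γ : ℂ → E, AnalyticAt ℂ γ 0 → γ 0 = r.2 → deriv γ 0 ≠ 0 →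
      (∀ᶠ w in 𝓝 (0 : ℂ), γ w ∈ Y (π (t r.1))) →
      AnalyticAt ℂ (fun w => β r.1 (σ (π (t r.1), γ w))) 0 ∧ β r.1 (σ (π (t r.1), r.2)) ≠ 0 := by
  have h0 := H.ne (H.mem hx)
  have h1 : Tendsto (fun r : α × E => (t r.1, r.2)) (U ×ˢ 𝓝 0) (𝓝 (t₀, 0)) :=
    (H.lim.comp tendsto_fst).prodMk_nhds tendsto_snd
  have h2 : ∀ᶠ r : α × E in U ×ˢ 𝓝 0, ∀ k, ¬Orb (q r.1 k) (σ (π (t r.1), r.2)) :=
    eventually_all.2 fun k => by
      obtain ⟨c, a1, a2⟩ := H.qlim k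
      exact ((a2.comp tendsto_fst).prodMk_nhds ((h.tendsto H.cont).comp h1)).eventually
        (ev_not_orb (H.ne (H.mem a1)) h0 fun e => hk k (H.eq_of_sm (H.sm k) (a1.trans e) hx))
  filter_upwards [h1.eventually (Usc.branch h H.cont (h0 o)), h2, tendsto_fst.eventually H.mer]
    with r a1 a2 a3 γ b1 b2 b3 b4
  have := a3.2.reg _ (a1 γ b1 b2 b3 b4) (by simpa only [b2] using a2)
  rwa [b2] at this

theorem ch_mem (h : ChAt o C π t₀ σ z) : σ (π t₀, z) ∈ C t₀ := by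
  simpa using SmAt.mem ⟨_, rfl, h⟩

theorem ch_ev (h : ChAt o C π t₀ σ z) : ∀ᶠ z' in 𝓝 z, ChAt o C π t₀ σ z' := by
  have h1 : Tendsto (fun z' => (t₀, z' - z)) (𝓝 z) (𝓝 (t₀, 0)) :=
    tendsto_const_nhds.prodMk_nhds (tendsto_sub_nhds_zero_iff.2 tendsto_id)
  filter_upwards [h1.eventually (Chart.shift h H.fam.cont
    (by simpa using H.ne (H.ch_mem h)) H.fam.cone)] with z' hz
  simpa only [ChAt, ← add_assoc, add_sub_cancel, mem_univ, ofPred_true] using hz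

theorem ch_exists (hx : Sm N x) (h : Orb (p x) c) :
    ∃ σ : P × ℂ → V M, σ (π t₀, 0) = c ∧ ChAt o C π t₀ σ 0 := by
  obtain ⟨σ, h1, h2⟩ := (H.fam.chart c (H.mem h)).resolve_right fun ⟨τ, h1⟩ => by
    obtain ⟨s, hs, rfl⟩ := h
    exact (H.par.isNode_iff hs).1 (h1.isNode H.fam) hx
  exact ⟨σ, h1, by simpa only [ChAt, zero_add] using h2⟩

theorem ch_shift (z : ℂ) :
    Tendsto (fun r : α × ℂ => (r.1, r.2 - z)) (U ×ˢ 𝓝 z) (U ×ˢ 𝓝 0) :=
  tendsto_fst.prodMk (tendsto_sub_nhds_zero_iff.2 tendsto_snd)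

theorem ch_to (h : ChAt o C π t₀ σ z) : Tendsto (fun r : α × ℂ => (r.1, σ (π (t r.1), r.2)))
    (U ×ˢ 𝓝 z) (Fl C U t (σ (π t₀, z))) := by
  have h1 : Tendsto (fun r : α × ℂ => (t r.1, r.2 - z)) (U ×ˢ 𝓝 z) (𝓝 (t₀, 0)) :=
    (H.lim.comp tendsto_fst).prodMk_nhds (tendsto_sub_nhds_zero_iff.2 tendsto_snd)
  refine tendsto_Fl.2 ⟨tendsto_fst, ?_, (h1.eventually h.mem).mono fun r hr => ?_⟩
  · simpa [comp_def] using (Chart.tendsto h H.cont).comp h1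
  · simpa using hr

theorem ch_sub (h : ChAt o C π t₀ σ z) : ∃ (s : α × V M → ι → ℂ) (ζ : α × V M → ℂ),
    Tendsto s (Fl C U t (σ (π t₀, z))) (𝓝 1) ∧
    Tendsto (fun r => (r.1, ζ r)) (Fl C U t (σ (π t₀, z))) (U ×ˢ 𝓝 z) ∧
      ∀ᶠ r in Fl C U t (σ (π t₀, z)), r.2 = s r • σ (π (t r.1), ζ r) := by
  obtain ⟨ρ, h1, h2, -, h3⟩ := Chart.exists_mem_iff h H.cont (by simpa using H.ne (H.ch_mem h))
    H.fam.cone
  simp only [add_zero] at h1 h2 h3
  have h4 := (h2 ▸ h1.continuousAt.tendsto :).comp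
    ((H.cont.tendsto.comp (H.lim.comp Fl_spec.1)).prodMk_nhds (Fl_spec (C := C) (t := t)).2.1)
  refine ⟨fun r => (ρ (π (t r.1), r.2)).1, fun r => z + (ρ (π (t r.1), r.2)).2,
    (continuous_fst.tendsto _).comp h4, Fl_spec.1.prodMk ?_, ?_⟩
  · simpa using ((continuous_snd.tendsto _).comp h4).const_add z
  · filter_upwards [((H.lim.comp Fl_spec.1).prodMk_nhds Fl_spec.2.1).eventually h3, Fl_spec.2.2]
      with r a b using (a.1 b).2

theorem ch_from (h : ChAt o C π t₀ σ z) : ∃ (k ζ : α × V M → ℂ),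
    Tendsto k (Fl C U t (σ (π t₀, z))) (𝓝 1) ∧
    Tendsto (fun r => (r.1, ζ r)) (Fl C U t (σ (π t₀, z))) (U ×ˢ 𝓝 z) ∧
      ∀ᶠ r in Fl C U t (σ (π t₀, z)), β r.1 r.2 = k r * β r.1 (σ (π (t r.1), ζ r)) := by
  obtain ⟨s, ζ, h1, h2, h3⟩ := H.ch_sub h
  refine ⟨fun r => chz χ (s r), ζ, ?_, h2, ?_⟩
  · simpa [chz, comp_def] using
      (an_chz (χ := χ) (s := 1) fun _ => one_ne_zero).continuousAt.tendsto.comp h1
  · filter_upwards [h3, ((H.ch_to h).comp h2).eventually (H.hom_Fl _), h1.eventually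
      (eventually_all.2 fun i => (continuous_apply i).continuousAt.eventually_ne one_ne_zero)]
      with r a b e
    exact (congrArg _ a).trans (b _ e)

theorem ch_an (h : ChAt o C π t₀ σ z) (hx : Orb (p x) (σ (π t₀, z))) (hk : ∀ k, x₀ k ≠ x) :
    ∀ᶠ r : α × ℂ in U ×ˢ 𝓝 z, AnalyticAt ℂ (fun w => β r.1 (σ (π (t r.1), w))) r.2 ∧
      β r.1 (σ (π (t r.1), r.2)) ≠ 0 := by
  filter_upwards [(H.ch_shift z).eventually (H.reg h (x := x) (by simpa using hx) hk)] with r a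
  obtain ⟨a1, a2⟩ := a (fun w => r.2 - z + w) (by fun_prop) (add_zero _) (by simp)
    (.of_forall fun _ => trivial)
  simp only [← add_assoc, add_sub_cancel] at a1 a2
  exact ⟨Usc.an_shift a1, a2⟩

end Ctx

variable (C U t β) in
/-- `log ‖β n‖ = a n + O(m n)` near `c` -/
def Bd (m a : α → ℝ) (c : V M) : Prop := (∀ᶠ r in Fl C U t c, β r.1 r.2 ≠ 0) ∧
  (fun r => log ‖β r.1 r.2‖ - a r.1) =O[Fl C U t c] fun r => m r.1

theorem Bd.ev (h : Bd C U t β m a c) : ∀ᶠ c' in 𝓝 c, Bd C U t β m a c' := by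
  obtain ⟨K, hK⟩ := h.2.bound
  exact ((Fl_ev h.1).and (Fl_ev hK)).mono fun c' e => ⟨e.1, IsBigO.of_bound K e.2⟩

theorem Bd.congr (h : Bd C U t β m a c) (e : (fun n => a n - a' n) =O[U] m) :
    Bd C U t β m a' c :=
  ⟨h.1, (h.2.add (e.comp_tendsto Fl_spec.1)).congr_left fun r => by simp⟩

theorem bigO_of_tendsto {Y : Type*} {F : Filter Y} {f m : Y → ℝ} {w : ℝ} (hm : ∀ n, 1 ≤ m n)
    (h : Tendsto f F (𝓝 w)) : f =O[F] m :=
  (h.isBigO_one ℝ).trans (IsBigO.of_bound 1 (.of_forall fun n => by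
    simpa using (hm n).trans (le_abs_self _)))

namespace Ctx

variable (H : Ctx o C π t₀ N A p U t χ x₀ u q β)
include H

theorem bd_sub (hc : c ∈ C t₀) (h : Bd C U t β m a c) (h' : Bd C U t β m a' c) :
    (fun n => a n - a' n) =O[U] m := by
  obtain ⟨y, h1, h2⟩ := H.fam.exists_approx hc
  exact ((h'.2.sub h.2).comp_tendsto (k := fun n => (n, y (t n))) (tendsto_Fl.2
    ⟨tendsto_id, h1.comp H.lim, H.lim.eventually h2⟩)).congr_left fun n => by simp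

theorem bd_orb (hm : ∀ n, 1 ≤ m n) (h : Bd C U t β m a c) (e : Orb c c') : Bd C U t β m a c' := by
  obtain ⟨s, hs, rfl⟩ := e.symm
  have h1 := (H.Fl_smul hs).eventually h.1
  have h2 : ∀ᶠ r in Fl C U t c', β r.1 r.2 ≠ 0 := by
    filter_upwards [h1, H.hom_Fl c'] with r a b
    exact right_ne_zero_of_mul (b s hs ▸ a)
  refine ⟨h2, ((h.2.comp_tendsto (H.Fl_smul hs)).sub (bigO_of_tendsto (fun r => hm r.1)
    (tendsto_const_nhds (x := log ‖chz χ s‖)))).congr' ?_ EventuallyEq.rfl⟩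
  filter_upwards [h2, H.hom_Fl c'] with r a b
  simp only [comp_apply]
  rw [b s hs, norm_mul, log_mul (norm_ne_zero_iff.2 (chz_ne hs)) (norm_ne_zero_iff.2 a)]
  ring

theorem log_from (h : ChAt o C π t₀ σ z) (hx : Orb (p x) (σ (π t₀, z))) (hk : ∀ k, x₀ k ≠ x) :
    ∃ (k : α × V M → ℝ) (ζ : α × V M → ℂ), Tendsto k (Fl C U t (σ (π t₀, z))) (𝓝 0) ∧
    Tendsto (fun r => (r.1, ζ r)) (Fl C U t (σ (π t₀, z))) (U ×ˢ 𝓝 z) ∧
      ∀ᶠ r in Fl C U t (σ (π t₀, z)), β r.1 r.2 ≠ 0 ∧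
        log ‖β r.1 r.2‖ = k r + log ‖β r.1 (σ (π (t r.1), ζ r))‖ := by
  obtain ⟨k, ζ, h1, h2, h3⟩ := H.ch_from h
  refine ⟨fun r => log ‖k r‖, ζ, by simpa using h1.norm.log (by simp), h2, ?_⟩
  filter_upwards [h3, h2.eventually (H.ch_an h hx hk), h1.eventually_ne one_ne_zero] with r a b e
  rw [a, norm_mul, log_mul (norm_ne_zero_iff.2 e) (norm_ne_zero_iff.2 b.2)]
  exact ⟨mul_ne_zero e b.2, rfl⟩

theorem bd_of_ch (hm : ∀ n, 1 ≤ m n) (h : ChAt o C π t₀ σ z) (hx : Orb (p x) (σ (π t₀, z)))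
    (hk : ∀ k, x₀ k ≠ x) (hb : (fun r : α × ℂ => log ‖β r.1 (σ (π (t r.1), r.2))‖ - a r.1)
      =O[U ×ˢ 𝓝 z] fun r => m r.1) : Bd C U t β m a (σ (π t₀, z)) := by
  obtain ⟨k, ζ, h1, h2, h3⟩ := H.log_from h hx hk
  refine ⟨h3.mono fun r a => a.1, ((bigO_of_tendsto (fun r => hm r.1) h1).add
    (hb.comp_tendsto h2)).congr' (h3.mono fun r a => ?_) EventuallyEq.rfl⟩
  simp only [comp_apply, a.2]
  ring

theorem lim_log (hm : ∀ n, 1 ≤ m n) (h : ChAt o C π t₀ σ z)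
    (hx : ∀ᶠ w in 𝓝 z, ∃ x, Orb (p x) (σ (π t₀, w)) ∧ ∀ k, x₀ k ≠ x)
    (hb : Bd C U t β m a (σ (π t₀, z))) : ∃ g, HarmonicAt g z ∧ ∀ᶠ w in 𝓝 z, Tendsto
      (fun r : α × V M => (log ‖β r.1 r.2‖ - a r.1) / m r.1) (Fl C U t (σ (π t₀, w))) (𝓝 (g w)) := by
  obtain ⟨x, x1, x2⟩ := hx.self_of_nhds
  obtain ⟨K, hK⟩ := (hb.2.comp_tendsto (H.ch_to h)).bound
  obtain ⟨g, g1, g2⟩ := montel_log U (g := fun n w => β n (σ (π (t n), w))) (a := a) (K := K)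
    (fun n => one_pos.trans_le (hm n)) (((H.ch_an h x1 x2).and hK).mono fun r e => ⟨e.1.1, e.1.2, by
      simpa [abs_of_pos (one_pos.trans_le (hm _))] using e.2⟩)
  refine ⟨g, g1, ?_⟩
  filter_upwards [g2, H.ch_ev h, hx] with w a1 a2 ⟨y, y1, y2⟩
  obtain ⟨k, ζ, h1, h2, h3⟩ := H.log_from a2 y1 y2
  have h4 : Tendsto (fun r => k r / m r.1) (Fl C U t (σ (π t₀, w))) (𝓝 0) :=
    squeeze_zero_norm (a := fun r => ‖k r‖) (fun r => by
      rw [norm_div]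
      exact div_le_self (norm_nonneg _) ((hm _).trans (le_abs_self _))) (by simpa using h1.norm)
  refine (zero_add (g w) ▸ h4.add (a1.comp h2) :).congr' (h3.mono fun r e => ?_)
  simp only [comp_apply, e.2]
  ring

theorem lim_val (h : ChAt o C π t₀ σ z) (hx : Orb (p x) (σ (π t₀, z))) (hk : ∀ k, x₀ k ≠ x)
    (hb : Bd C U t β 1 a (σ (π t₀, z))) : ∃ g, AnalyticAt ℂ g z ∧ g z ≠ 0 ∧ ∀ᶠ w in 𝓝 z, Tendsto
      (fun r : α × V M => β r.1 r.2 / exp (a r.1)) (Fl C U t (σ (π t₀, w))) (𝓝 (g w)) := by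
  obtain ⟨K, hK⟩ := (hb.2.comp_tendsto (H.ch_to h)).bound
  have h0 : ∀ n, ((exp (a n) : ℝ) : ℂ) ≠ 0 := fun n => Complex.ofReal_ne_zero.2 (exp_ne_zero _)
  obtain ⟨g, g1, g2, g3⟩ := montel_val U (g := fun n w => β n (σ (π (t n), w)) / exp (a n))
    (K := K) (((H.ch_an h hx hk).and hK).mono fun r e => ⟨e.1.1.div analyticAt_const (h0 _),
      div_ne_zero e.1.2 (h0 _), by
        rw [norm_div, log_div (norm_ne_zero_iff.2 e.1.2) (norm_ne_zero_iff.2 (h0 _)),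
          Complex.norm_real, Real.norm_of_nonneg (exp_pos _).le, log_exp]
        simpa using e.2⟩)
  refine ⟨g, g1, g2, ?_⟩
  filter_upwards [g3, H.ch_ev h] with w a1 a2
  obtain ⟨k, ζ, h1, h2, h3⟩ := H.ch_from a2
  refine (one_mul (g w) ▸ h1.mul (a1.comp h2) :).congr' (h3.mono fun r e => ?_)
  simp only [comp_apply, e]
  ring

end Ctx

end Vale.Agent.P269.Clos
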