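import Vale.Agent.P269.Clos.EtaB

/-!
# Charts of the family at the points of the normalisation, estimates on discs and necks
-/

set_option linter.unusedSectionVars false

namespace Vale.Agent.P269.Clos

open Set Function Topology Filter Metric InnerProductSpace Base Cv Asymptotics
open Real (log exp)

variable {ι : Type} [Fintype ι] {M : ι → ℕ} {T P : Type*} [TopologicalSpace T]
  [NormedAddCommGroup P] [NormedSpace ℂ P] [FiniteDimensional ℂ P] {o : ι} {C : T → Set (V M)}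
  {π : T → P} {t₀ : T}
  {X : Type} [TopologicalSpace X] [T2Space X] [CompactSpace X] {R : RS X} {N : Finset (X × X)}
  {A : ι → LB R} {p : X → V M} {α κ : Type*} [Finite κ]
  {U : Ultrafilter α} {t : α → T} {χ : ι → ℤ} {x₀ : κ → X} {u : κ → ℤ} {q : α → κ → V M}
  {β : α → V M → ℂ} {σ : P × ℂ → V M} {z : ℂ} {c c' : V M} {x x' y : X} {m a a' : α → ℝ} {r : ℝ}

theorem ev_small {E : Type*} [NormedAddCommGroup E] {s : E → Prop} (h : ∀ᶠ z in 𝓝 0, s z) :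
    ∀ᶠ r : ℝ in 𝓝[>] 0, ∀ z, ‖z‖ < 2 * r → s z := by
  have h1 : Tendsto (fun r : ℝ => 2 * r) (𝓝[>] 0) (𝓝 0) :=
    ((by fun_prop : Continuous fun r : ℝ => 2 * r).tendsto' 0 0 (by simp)).mono_left
      nhdsWithin_le_nhds
  exact (h1.eventually (eventually_closedBall_subset h)).mono fun r hr z hz =>
    hr (by simpa using hz.le)

theorem ev_small₂ {E : Type*} [NormedAddCommGroup E] {l : Filter α} {s : α × E → Prop}
    (h : ∀ᶠ z in l ×ˢ 𝓝 0, s z) :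
    ∀ᶠ r : ℝ in 𝓝[>] 0, ∀ᶠ n in l, ∀ z, ‖z‖ < 2 * r → s (n, z) := by
  obtain ⟨pa, ha, pb, hb, h1⟩ := eventually_prod_iff.1 h
  exact (ev_small hb).mono fun r hr => ha.mono fun n hn z hz => h1 hn (hr z hz)

theorem ev_ann {l : Filter α} {ρ : α → ℝ} (hρ : Tendsto ρ l (𝓝 0)) (h0 : z ≠ 0) (h1 : ‖z‖ < r) :
    ∀ᶠ q : α × ℂ in l ×ˢ 𝓝 z, q.2 ≠ 0 ∧ ρ q.1 ≤ ‖q.2‖ ∧ ‖q.2‖ ≤ r :=
  (tendsto_snd.eventually_ne h0).and (((hρ.comp tendsto_fst).eventually_lt tendsto_snd.norm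
    (norm_pos_iff.2 h0)).mono (fun _ => le_of_lt) |>.and (tendsto_snd.norm.eventually_le_const h1))

variable (o C π t₀ N A p x₀) in
/-- A chart of the family along the branch `j 0` of the central fibre. -/
structure FC (σ : P × ℂ → V M) (r : ℝ) (j : ℂ → X) : Prop where
  pos : 0 < r
  fac : Nrm.Fac (br A p (j 0)) fun z => σ (π t₀, z)
  opn : 𝓝 (j 0) ≤ map j (𝓝 0)
  cont : ∀ z, ‖z‖ < 2 * r → ContinuousAt j z
  orb : ∀ z, ‖z‖ < 2 * r → Orb (p (j z)) (σ (π t₀, z))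
  ordi : ∀ z, z ≠ 0 ∨ Ordi N x₀ (j 0) → ‖z‖ < 2 * r → Ordi N x₀ (j z) ∧ ChAt o C π t₀ σ z

variable (π t β) in
/-- the logarithm of the absolute value of the sections in a chart -/
noncomputable def lg (σ : P × ℂ → V M) (n : α) (z : ℂ) : ℝ := log ‖β n (σ (π (t n), z))‖

variable (π U t β) in
/-- the oscillation on the outer annulus is `O(m)` -/
def Osc (σ : P × ℂ → V M) (r : ℝ) (m : α → ℝ) : Prop := ∃ K, ∀ᶠ n in U, ∀ z : ℂ, r / 2 ≤ ‖z‖ →
  ‖z‖ ≤ r → |lg π t β σ n z - lg π t β σ n r| ≤ K * m n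

variable (π U t β) in
/-- logarithmic growth in the disc -/
def Gr (σ : P × ℂ → V M) (r : ℝ) (s : Prop) (m al : α → ℝ) : Prop := al =O[U] m ∧ ∃ K, ∀ z : ℂ,
  z ≠ 0 ∨ s → ‖z‖ < r → ∀ᶠ q : α × ℂ in U ×ˢ 𝓝 z,
    |lg π t β σ q.1 q.2 - lg π t β σ q.1 r - al q.1 * log (‖q.2‖ / r)| ≤ K * m q.1

variable (o C π t₀ N A p U t x₀ u β) in
/-- Charts along the branches through a point, with the estimates. -/
structure DC (σ : Bool → P × ℂ → V M) (r : ℝ) (j : Bool → ℂ → X) (τ : α → ℂ) : Prop where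
  fc : ∀ b, FC o C π t₀ N A p x₀ (σ b) r (j b)
  tau : Tendsto τ U (𝓝 0)
  nd : ¬Sm N (j true 0) → (j true 0, j false 0) ∈ N ∨ (j false 0, j true 0) ∈ N
  est : ∀ m : α → ℝ, (∀ n, 1 ≤ m n) → (∀ b, Osc π U t β (σ b) r m) → ∃ al : α → ℝ,
    Gr π U t β (σ true) r (Ordi N x₀ (j true 0)) m al ∧
    (Sm N (j true 0) → ∀ n, al n = (extend x₀ u 0 (j true 0) : ℤ)) ∧
    (¬Sm N (j true 0) → Gr π U t β (σ false) r False m (-al) ∧ (∀ᶠ n in U, τ n = 0 → al n = 0) ∧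
      (fun n => lg π t β (σ true) n r - lg π t β (σ false) n r + al n * log ‖τ n‖) =O[U] m)

/-- the two sides of a node chart -/
noncomputable def sd (σ : P × (ℂ × ℂ) → V M) (τ : P → ℂ) : Bool → P × ℂ → V M
  | true => fun q => σ (q.1, (q.2, τ q.1 / q.2))
  | false => fun q => σ (q.1, (τ q.1 / q.2, q.2))

theorem fac_orb {δ : ℂ → V M} (h : Nrm.Fac (br A p x) δ) : Orb (p x) (δ 0) := by
  obtain ⟨s, φ, -, -, h1, h2, -, h3⟩ := h
  exact ⟨s 0, h1, by rw [h3.self_of_nhds, h2, br_zero]⟩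

theorem exists_j {δ : ℂ → V M} (h : Nrm.Fac (br A p x) δ) : ∃ j : ℂ → X, j 0 = x ∧
    𝓝 x ≤ map j (𝓝 0) ∧ ∀ᶠ z in 𝓝 0, ContinuousAt j z ∧ Orb (p (j z)) (δ z) ∧
      (z ≠ 0 ∨ Ordi N x₀ x → Ordi N x₀ (j z)) := by
  obtain ⟨s, φ, h1, h2, h3, h4, h5, h6⟩ := h
  have h7 : map φ (𝓝 0) = 𝓝 0 := by rw [h2.hasStrictDerivAt.map_nhds_eq h5, h4]
  have h8 : ∀ᶠ z in 𝓝 0, z ≠ 0 → φ z ≠ 0 := eventually_nhdsWithin_iff.1
    (h2.eventually_eq_zero_or_eventually_ne_zero.resolve_left fun e =>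
      h5 (by rw [EventuallyEq.deriv_eq (f := fun _ => 0) e, deriv_const]))
  have h9 : R.i x (φ 0) = x := by rw [h4, R.i_zero]
  refine ⟨fun z => R.i x (φ z), h9, by rw [← R.map_i x, ← h7, map_map, h7]; rfl, ?_⟩
  filter_upwards [h2.eventually_analyticAt, h7.le (R.tgt_nhds x), h6, h8, eventually_all.2 fun i =>
    (continuousAt_pi.1 h1.continuousAt i).eventually_ne (h3 i), h7.le (eventually_nhdsWithin_iff.1
      (R.ev_ne_iff.1 (ev_ordi (N := N) (x₀ := x₀) x)))] with z a1 a2 a3 a4 a5 a6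
  refine ⟨(R.contAt_i a2).comp a1.continuousAt, ⟨_, fun i => mul_ne_zero (a5 i) (inv_ne_zero
    ((A i).ne x (R.i x (φ z)))), by rw [a3, br_eq, smul_smul]; rfl⟩, fun e => ?_⟩
  rcases eq_or_ne z 0 with rfl | e'
  · exact h9.symm ▸ e.resolve_left fun e => e rfl
  · exact a6 (a4 e')

theorem exists_fc (h : Nrm.Fac (br A p x) fun z => σ (π t₀, z))
    (hc : ∀ᶠ z in 𝓝 0, z ≠ 0 ∨ Ordi N x₀ x → ChAt o C π t₀ σ z) :
    ∃ j : ℂ → X, j 0 = x ∧ ∀ᶠ r in 𝓝[>] 0, FC o C π t₀ N A p x₀ σ r j := by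
  obtain ⟨j, rfl, h1, h2⟩ := exists_j (N := N) (x₀ := x₀) h
  refine ⟨j, rfl, ?_⟩
  filter_upwards [ev_small (h2.and hc), self_mem_nhdsWithin] with r a b
  exact ⟨b, h, h1, fun z e => (a z e).1.1, fun z e => (a z e).1.2.1, fun z e' e =>
    ⟨(a z e).1.2.2 e', (a z e).2 e'⟩⟩

namespace Ctx

variable (H : Ctx o C π t₀ N A p U t χ x₀ u q β)
include H

theorem exists_fac {δ : ℂ → V M} (h : IsBranch o (C t₀) δ) : ∃ y, Nrm.Fac (br A p y) δ :=
  let ⟨y, s, φ, h1, h2, h3, h4⟩ := H.par.factor_branch h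
  ⟨y, s, φ, h1, h3, h2, h4⟩

theorem fc_sm (hx : Sm N x) (h : ChAt o C π t₀ σ 0) (e : Orb (p x) (σ (π t₀, 0))) :
    ∃ j : ℂ → X, j 0 = x ∧ ∀ᶠ r in 𝓝[>] 0, FC o C π t₀ N A p x₀ σ r j := by
  obtain ⟨y, hy⟩ := H.exists_fac (δ := fun z => σ (π t₀, z)) (by
    simpa using (Chart.isBranch h H.fam).self_of_nhds)
  obtain rfl := H.eq_of_sm hx e (fac_orb hy)
  exact exists_fc hy ((H.ch_ev h).mono fun z a _ => a)

theorem dc_ordi (hx : Ordi N x₀ x) : ∃ σ r j τ, j true 0 = x ∧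
    DC o C π t₀ N A p U t x₀ u β σ r j τ := by
  obtain ⟨σ, h1, h2⟩ := H.ch_exists hx.1 (Orb.refl _)
  obtain ⟨j, rfl, h3⟩ := H.fc_sm hx.1 h2 (h1 ▸ Orb.refl _)
  obtain ⟨r, h4, h5⟩ := (h3.and (ev_small₂ (H.ch_an h2 (h1 ▸ Orb.refl _) hx.2))).exists
  refine ⟨fun _ => σ, r, fun _ => j, 0, rfl, fun _ => h4, tendsto_const_nhds,
    fun e => absurd hx.1 e, fun m _ ho => ⟨0, ⟨isBigO_zero _ _, ?_⟩, fun _ n => ?_,
      fun e => absurd hx.1 e⟩⟩
  · obtain ⟨K, hK⟩ := ho true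
    refine ⟨K, fun z _ hz => ?_⟩
    filter_upwards [tendsto_fst.eventually (h5.and hK), tendsto_snd.norm.eventually_le_const hz]
      with w a b
    simp only [Pi.zero_apply, zero_mul, sub_zero]
    exact harm_disc (fun y hy => have := a.1 y (by linarith [h4.pos])
      this.1.harmonicAt_log_norm this.2) (fun y hy => a.2 y (by linarith [h4.pos]) hy.le) b
  · rw [extend_apply' _ _ _ fun ⟨k, hk⟩ => hx.2 k hk]
    simp

theorem mark (k : κ) : ∃ (σ : P × ℂ → V M) (ζ : α → ℂ), Orb (p (x₀ k)) (σ (π t₀, 0)) ∧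
    ChAt o C π t₀ σ 0 ∧ Tendsto ζ U (𝓝 0) ∧
    (∀ᶠ r : α × ℂ in U ×ˢ 𝓝 0, r.2 ≠ ζ r.1 → AnalyticAt ℂ (fun w => β r.1 (σ (π (t r.1), w))) r.2 ∧
      β r.1 (σ (π (t r.1), r.2)) ≠ 0) ∧
    ∀ᶠ n in U, ∃ a, Ord (u k) (fun w => β n (σ (π (t n), ζ n + w))) a := by
  obtain ⟨c, h1, h2⟩ := H.qlim k
  obtain ⟨σ, rfl, h3⟩ := H.ch_exists (H.sm k) h1
  obtain ⟨s, ζ, s1, s2, s3⟩ := H.ch_sub h3
  have h4 : Tendsto (fun n => (n, q n k)) U (Fl C U t (σ (π t₀, 0))) :=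
    tendsto_Fl.2 ⟨tendsto_id, h2, H.mer.mono fun n a => a.1 k⟩
  have h5 : Tendsto (fun n => ζ (n, q n k)) U (𝓝 0) := tendsto_snd.comp (s2.comp h4)
  have h6 : ∀ᶠ n in U, Orb (σ (π (t n), ζ (n, q n k))) (q n k) := by
    filter_upwards [h4.eventually s3, (s1.comp h4).eventually (eventually_all.2 fun i =>
      (continuous_apply i).continuousAt.eventually_ne one_ne_zero)] with n a b using ⟨_, b, a⟩
  have h7 : ∀ᶠ r : α × ℂ in U ×ˢ 𝓝 0, IsBranch o (C (t r.1)) fun z => σ (π (t r.1), r.2 + z) := by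
    simpa using ((H.lim.comp tendsto_fst).prodMk_nhds tendsto_snd).eventually
      (Chart.isBranch h3 H.fam)
  have h0 := H.ne (H.mem h1)
  refine ⟨σ, fun n => ζ (n, q n k), h1, h3, h5, ?_, ?_⟩
  · have h8 : ∀ᶠ r : α × ℂ in U ×ˢ 𝓝 0, ∀ k', k' ≠ k → ¬Orb (q r.1 k') (σ (π (t r.1), r.2)) :=
      eventually_all.2 fun k' => by
        obtain ⟨c', a1, a2⟩ := H.qlim k'
        rcases eq_or_ne k' k with e | e
        · exact .of_forall fun _ e' => absurd e e'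
        · exact (((a2.comp tendsto_fst).prodMk_nhds (tendsto_Fl.1 (H.ch_to h3)).2.1).eventually
            (ev_not_orb (H.ne (H.mem a1)) h0 fun e' =>
              e (H.inj (H.eq_of_sm (H.sm k') (a1.trans e') h1)))).mono fun _ a _ => a
    filter_upwards [h7, h8, tendsto_fst.eventually (h6.and H.mer),
      ((H.cont.tendsto.comp (H.lim.comp tendsto_fst)).prodMk_nhds ((h5.comp tendsto_fst).prodMk_nhds
        tendsto_snd)).eventually (Chart.inj h3 (by simpa using h0))] with r a1 a2 a3 a4 a5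
    have := a3.2.2.reg _ a1 fun k' => by
      rcases eq_or_ne k' k with rfl | e
      · intro e
        obtain ⟨s, -, e⟩ := a3.1.trans e
        exact a5 (a4 s (by simpa using e)).2.symm
      · simpa using a2 k' e
    exact ⟨Usc.an_shift this.1, by simpa using this.2⟩
  · filter_upwards [(tendsto_id.prodMk h5).eventually h7, h6, H.mer] with n a1 a2 a3
    exact a3.2.ord k _ a1 (by simpa using a2.symm)

theorem dc_mark (k : κ) : ∃ σ r j τ, j true 0 = x₀ k ∧ DC o C π t₀ N A p U t x₀ u β σ r j τ := by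
  obtain ⟨σ, ζ, h1, h2, h3, h4, h5⟩ := H.mark k
  obtain ⟨j, hj, h6⟩ := H.fc_sm (H.sm k) h2 h1
  obtain ⟨r, h6, h7⟩ := (h6.and (ev_small₂ h4)).exists
  have h8 : ¬¬Sm N (j 0) := not_not.2 (hj ▸ H.sm k)
  have h9 : Tendsto (fun n => 2 * ‖ζ n‖) U (𝓝 0) := by simpa using h3.norm.const_mul 2
  refine ⟨fun _ => σ, r, fun _ => j, 0, hj, fun _ => h6, tendsto_const_nhds, fun e => absurd e h8,
    fun m hm ho => ⟨fun _ => u k, ⟨bigO_of_tendsto hm tendsto_const_nhds, ?_⟩, fun _ n => ?_,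
      fun e => absurd e h8⟩⟩
  · obtain ⟨K, hK⟩ := ho true
    refine ⟨K + 2 * |(u k : ℝ)|, fun z h0 hz => ?_⟩
    filter_upwards [tendsto_fst.eventually (h7.and (hK.and (h5.and (h9.eventually_le_const h6.pos)))),
      ev_ann h9 (h0.resolve_right fun e => e.2 k hj.symm) hz] with w ⟨a1, a2, ⟨_, a3⟩, a4⟩ b
    refine (mark_est h6.pos a4 (fun y y1 y2 => a1 y (by linarith [h6.pos]) y1) a3
      (fun y hy => a2 y (by linarith [h6.pos]) hy.le) b.1 b.2.1 b.2.2).trans ?_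
    nlinarith [hm w.1, abs_nonneg (u k : ℝ)]
  · simp only [hj, H.inj.extend_apply]

variable {σ : P × (ℂ × ℂ) → V M} {τ : P → ℂ}

theorem nd_side (h : Chart o C π t₀ σ fun p => {z | z.1 * z.2 = τ p}) (hτ : AnalyticAt ℂ τ (π t₀))
    (h0 : τ (π t₀) = 0) (hx : ¬Sm N x) (hf : Nrm.Fac (br A p x) fun z => σ (π t₀, (z, 0))) :
    (∃ j : ℂ → X, j 0 = x ∧ ∀ᶠ r in 𝓝[>] 0, FC o C π t₀ N A p x₀ (sd σ τ true) r j) ∧
    ∀ᶠ r : ℝ in 𝓝[>] 0, ∀ᶠ n in U, ∀ z : ℂ, ‖z‖ ≤ r → ‖τ (π (t n))‖ / r ≤ ‖z‖ →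
      z ≠ 0 ∨ τ (π (t n)) = 0 → AnalyticAt ℂ (fun w => β n (sd σ τ true (π (t n), w))) z ∧
        β n (sd σ τ true (π (t n), z)) ≠ 0 := by
  refine ⟨exists_fc (by simpa only [sd, h0, zero_div] using hf) ?_, ?_⟩
  · have h1 : Tendsto (fun z : ℂ => (t₀, z, (0 : ℂ))) (𝓝 0) (𝓝 (t₀, 0)) :=
      (by fun_prop : Continuous fun z : ℂ => (t₀, z, (0 : ℂ))).tendsto 0
    filter_upwards [h1.eventually (h.eventually_disc hτ h0 H.fam)] with z a b
    exact a (by simp [h0]) (b.resolve_right fun e => hx e.1)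
  · filter_upwards [ev_small₂ (H.reg h (fac_orb hf) fun k e => hx (e ▸ H.sm k)),
      self_mem_nhdsWithin] with r a hr
    have hr : 0 < r := hr
    filter_upwards [a] with n b z z1 z2 z3
    obtain ⟨n1, n2, n3⟩ := Usc.neck hr ((div_le_iff₀' hr).1 z2) z3
    have n4 : AnalyticAt ℂ (fun w : ℂ => z + w) 0 := by fun_prop
    have := b (z, τ (π (t n)) / z) (by rw [Prod.norm_mk]; exact max_lt (by linarith) (by linarith))
      (fun w => (z + w, τ (π (t n)) / (z + w))) (n4.prod n2) (by simp) (by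
        rw [(((hasDerivAt_id' (0 : ℂ)).const_add z).prodMk n2.differentiableAt.hasDerivAt).deriv]
        exact fun e => one_ne_zero (congrArg Prod.fst e)) n3
    exact ⟨Usc.an_shift this.1, this.2⟩

theorem dc_node (hx : (x, x') ∈ N ∨ (x', x) ∈ N)
    (h : Chart o C π t₀ σ fun p => {z | z.1 * z.2 = τ p}) (hτ : AnalyticAt ℂ τ (π t₀))
    (h0 : τ (π t₀) = 0) (hf : Nrm.Fac (br A p x) fun z => σ (π t₀, (z, 0)))
    (hf' : Nrm.Fac (br A p x') fun z => σ (π t₀, (0, z))) :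
    ∃ j : Bool → ℂ → X, j true 0 = x ∧ j false 0 = x' ∧ ∀ᶠ r : ℝ in 𝓝[>] 0,
      DC o C π t₀ N A p U t x₀ u β (sd σ τ) r j (fun n => τ (π (t n)) / r ^ 2) ∧
      ∀ᶠ n in U, Neck (τ (π (t n))) r (fun w => β n (sd σ τ true (π (t n), w)))
        fun w => β n (sd σ τ false (π (t n), w)) := by
  have s1 : ¬Sm N x := fun e => hx.elim (fun a => (e _ a).1 rfl) fun a => (e _ a).2 rfl
  have s2 : ¬Sm N x' := fun e => hx.elim (fun a => (e _ a).2 rfl) fun a => (e _ a).1 rfl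
  obtain ⟨⟨j, rfl, h1⟩, h2⟩ := H.nd_side h hτ h0 s1 hf
  obtain ⟨⟨j', rfl, h1'⟩, h2'⟩ := H.nd_side (h.swap_node H.cont) hτ h0 s2 hf'
  have h3 : Tendsto (fun n => τ (π (t n))) U (𝓝 0) :=
    h0 ▸ hτ.continuousAt.tendsto.comp (H.cont.tendsto.comp H.lim)
  refine ⟨fun b => cond b j j', rfl, rfl, ?_⟩
  filter_upwards [h1, h1', h2, h2'] with r a1 a2 a3 a4
  have h4 : Tendsto (fun n => ‖τ (π (t n))‖ / r) U (𝓝 0) := by simpa using h3.norm.div_const r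
  have h5 : ∀ᶠ n in U, Neck (τ (π (t n))) r (fun w => β n (sd σ τ true (π (t n), w)))
      fun w => β n (sd σ τ false (π (t n), w)) := by
    filter_upwards [a3, a4, h4.eventually_le_const (half_pos a1.pos)] with n b1 b2 b3
    exact ⟨a1.pos, b3, fun z z1 z2 z3 => ⟨b1 z z1 z2 z3, b2 z z1 z2 z3⟩,
      fun z _ e => by simp only [sd, div_div_cancel₀ e], fun e => by simp only [sd, div_zero]⟩
  refine ⟨⟨fun b => by cases b; exacts [a2, a1], by simpa using h3.div_const ((r : ℂ) ^ 2),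
    fun _ => hx, fun m hm ho => ?_⟩, h5⟩
  obtain ⟨K, hK⟩ := ho true
  obtain ⟨K', hK'⟩ := ho false
  have h6 : ∀ n, 0 ≤ m n := fun n => zero_le_one.trans (hm n)
  obtain ⟨al, h7⟩ := Eventually.choice ((h5.and (hK.and hK')).mono fun n b => b.1.est
    (m := max K K' * m n) fun z z1 z2 =>
      ⟨(b.2.1 z z1 z2).trans (mul_le_mul_of_nonneg_right (le_max_left _ _) (h6 n)),
        (b.2.2 z z1 z2).trans (mul_le_mul_of_nonneg_right (le_max_right _ _) (h6 n))⟩)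
  have h8 : al =O[U] m := .of_bound (3 * max K K') (h7.mono fun n b => by
    rw [Real.norm_of_nonneg (h6 n), mul_assoc]; exact b.1)
  have h9 := fun z (z1 : z ≠ 0) (z2 : ‖z‖ < r) => ((tendsto_fst.eventually h7).and
    (ev_ann h4 z1 z2)).mono fun w b => b.1.2.2.2 w.2 b.2.1 b.2.2.1 b.2.2.2
  exact ⟨al, ⟨h8, _, fun z z1 z2 => (h9 z (z1.resolve_right fun e => s1 e.1) z2).mono
    fun w b => b.1⟩, fun e => absurd e s1, fun _ => ⟨⟨h8.neg_left, _, fun z z1 z2 =>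
      (h9 z (z1.resolve_right id) z2).mono fun w b => b.2⟩, h7.mono fun n b e =>
      b.2.1 ((div_eq_zero_iff.1 e).resolve_right (pow_ne_zero _ (Complex.ofReal_ne_zero.2
        a1.pos.ne'))), .of_bound (2 * max K K') (h7.mono fun n b => by
          rw [Real.norm_of_nonneg (h6 n), mul_assoc]; exact b.2.2.1)⟩⟩

end Ctx

/-- charts at the nodes, adapted to the two branches -/
theorem exists_node_chart (hf : LocFam o C π t₀) (hp : Par o (C t₀) N A p)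
    (hx : (x, x') ∈ N ∨ (x', x) ∈ N) : ∃ (σ : P × (ℂ × ℂ) → V M) (τ : P → ℂ),
      (Chart o C π t₀ σ fun p => {z | z.1 * z.2 = τ p}) ∧ AnalyticAt ℂ τ (π t₀) ∧ τ (π t₀) = 0 ∧
      σ (π t₀, 0) = p x ∧ (Nrm.Fac (br A p x) fun z => σ (π t₀, (z, 0))) ∧
      Nrm.Fac (br A p x') fun z => σ (π t₀, (0, z)) := by
  obtain ⟨τ, σ, h1, h2, h3, h4⟩ := (hf.chart _ (hp.mem x)).resolve_left fun e =>
    e.not_isNode hf (by
      simpa using (hp.isNode_iff (t := 1) fun _ => one_ne_zero).2 fun e : Sm N x =>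
        hx.elim (fun a => (e _ a).1 rfl) fun a => (e _ a).2 rfl)
  have h5 := h4.isCross h3 (h1 ▸ hp.ne x o)
  obtain ⟨x'', -, h6⟩ := hp.partner x
  obtain rfl : x' = x'' := (h6 x' (.inr hx)).resolve_left fun e =>
    hx.elim (fun a => hp.nd.ne _ a _ a e.symm) fun a => hp.nd.ne _ a _ a e
  have key : ∀ δ, IsBranch o (C t₀) δ → δ 0 = p x →
      Nrm.Fac (br A p x) δ ∨ Nrm.Fac (br A p x') δ := fun δ a b => by
    obtain ⟨y, s, φ, a1, a2, a3, a4⟩ := hp.factor_branch a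
    have a5 : Nrm.Fac (br A p y) δ := ⟨s, φ, a1, a3, a2, a4⟩
    obtain ⟨s', -, e⟩ := (b ▸ fac_orb a5 :).symm
    rcases h6 y (hp.inj x y s' e) with rfl | rfl
    exacts [.inl a5, .inr a5]
  have ne : ∀ y, (Nrm.Fac (br A p y) fun z => σ (π t₀, (z, 0))) →
      ¬Nrm.Fac (br A p y) fun z => σ (π t₀, (0, z)) := fun y a b =>
    Nrm.ne_of_isCross h5 ((a.J_eq (an_br hp.sec y)).trans (b.J_eq (an_br hp.sec y)).symm)
  rcases key _ h5.1 h1 with a | a <;> rcases key _ h5.2.1 h1 with b | b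
  exacts [absurd b (ne _ a), ⟨σ, τ, h4, h2, h3, h1, a, b⟩,
    ⟨_, τ, h4.swap_node hf.cont.self_of_nhds, h2, h3, h1, b, a⟩, absurd b (ne _ a)]

theorem Ctx.exists_dc (H : Ctx o C π t₀ N A p U t χ x₀ u q β) (x : X) :
    ∃ σ r j τ, j true 0 = x ∧ DC o C π t₀ N A p U t x₀ u β σ r j τ := by
  by_cases h1 : Sm N x
  · by_cases h2 : ∃ k, x₀ k = x
    · obtain ⟨k, rfl⟩ := h2
      exact H.dc_mark k
    · exact H.dc_ordi ⟨h1, not_exists.1 h2⟩
  · obtain ⟨x', h2, -⟩ := H.par.partner x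
    have h3 := h2.resolve_left fun e => h1 e.1
    obtain ⟨σ, τ, a1, a2, a3, -, a4, a5⟩ := exists_node_chart H.fam H.par h3
    obtain ⟨j, b1, -, b2⟩ := H.dc_node h3 a1 a2 a3 a4 a5
    obtain ⟨r, b3, -⟩ := b2.exists
    exact ⟨_, r, j, _, b1, b3⟩

end Vale.Agent.P269.Clos
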