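import Vale.Agent.P269.Clos.EtaC

/-!
# The oscillation of the logarithm on the thick parts is bounded
-/

set_option linter.unusedSectionVars false

namespace Vale.Agent.P269.Clos

open Set Function Topology Filter Metric InnerProductSpace Base Cv Asymptotics
open Real (log exp)

variable {ι : Type} [Fintype ι] {M : ι → ℕ} {T P : Type*} [TopologicalSpace T]
  [NormedAddCommGroup P] [NormedSpace ℂ P] [FiniteDimensional ℂ P] {o : ι} {C : T → Set (V M)}
  {π : T → P} {t₀ : T}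
  {X : Type} [TopologicalSpace X] [T2Space X] [CompactSpace X] {R : RS X} {N : Finset (X × X)}
  {A : ι → LB R} {p : X → V M} {α κ : Type*} [Finite κ]
  {U : Ultrafilter α} {t : α → T} {χ : ι → ℤ} {x₀ : κ → X} {u : κ → ℤ} {q : α → κ → V M}
  {β : α → V M → ℂ} {z : ℂ} {c c' : V M} {x x' y : X} {m al : α → ℝ}

theorem norm_r {r : ℝ} (hr : 0 < r) : ‖(r : ℂ)‖ = r := by
  rw [Complex.norm_real, Real.norm_of_nonneg hr.le]

theorem exists_ratio (hm : ∀ n, 1 ≤ m n) (h : al =O[U] m) :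
    ∃ w, Tendsto (fun n => al n / m n) U (𝓝 w) := by
  obtain ⟨K, hK⟩ := h.bound
  obtain ⟨w, -, hw⟩ := (isCompact_closedBall (0 : ℝ) K).ultrafilter_le_nhds'
    (U.map fun n => al n / m n) (hK.mono fun n a => by
      rw [mem_closedBall_zero_iff, norm_div]
      exact (div_le_iff₀ (norm_pos_iff.2 (one_pos.trans_le (hm n)).ne')).2 a)
  exact ⟨w, hw⟩

section One

variable {σ : P × ℂ → V M} {r : ℝ} {j : ℂ → X} {a : α → ℝ} {s : Prop}

theorem FC.comp (h : FC o C π t₀ N A p x₀ σ r j) (hz : ‖z‖ < 2 * r) :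
    j z ∈ connectedComponent (j 0) :=
  ((convex_ball (0 : ℂ) (2 * r)).isPreconnected.image j fun w hw =>
    (h.cont w (by simpa using hw)).continuousWithinAt).subset_connectedComponent
      ⟨0, mem_ball_self (by linarith [h.pos]), rfl⟩ ⟨z, by simpa using hz, rfl⟩

theorem FC.ev (h : FC o C π t₀ N A p x₀ σ r j) (h0 : z ≠ 0 ∨ Ordi N x₀ (j 0)) (hz : ‖z‖ < 2 * r) :
    ∀ᶠ w in 𝓝 z, Ordi N x₀ (j w) ∧ Orb (p (j w)) (σ (π t₀, w)) ∧
      j w ∈ connectedComponent (j 0) := by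
  have h1 : ∀ᶠ w in 𝓝 z, w ≠ 0 ∨ Ordi N x₀ (j 0) := h0.elim
    (fun e => (eventually_ne_nhds e).mono fun _ => .inl) fun e => .of_forall fun _ => .inr e
  filter_upwards [h1, (continuous_norm.tendsto z).eventually_lt_const hz] with w a b
    using ⟨(h.ordi w a b).1, h.orb w b, h.comp b⟩

theorem FC.ev0 (h : FC o C π t₀ N A p x₀ σ r j) : ∀ᶠ z : ℂ in 𝓝[≠] 0, z ≠ 0 ∧ ‖z‖ < r :=
  (eventually_mem_nhdsWithin).and (nhdsWithin_le_nhds
    ((continuous_norm.tendsto' 0 0 norm_zero).eventually_lt_const h.pos))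

theorem Gr.bigO (h : Gr π U t β σ r s m al) (hr : 0 < r) (hm : ∀ n, 1 ≤ m n)
    (h0 : z ≠ 0 ∨ s ∧ ∀ n, al n = 0) (hz : ‖z‖ < r) :
    (fun q : α × ℂ => lg π t β σ q.1 q.2 - lg π t β σ q.1 r) =O[U ×ˢ 𝓝 z] fun q => m q.1 := by
  obtain ⟨h1, K, h2⟩ := h
  have h3 : (fun q : α × ℂ => al q.1 * log (‖q.2‖ / r)) =O[U ×ˢ 𝓝 z] fun q => m q.1 := by
    rcases h0 with e | e
    · simpa using (h1.comp_tendsto tendsto_fst).mul (((tendsto_snd.norm.div_const r).log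
        (div_pos (norm_pos_iff.2 e) hr).ne').isBigO_one ℝ)
    · simpa [e.2] using isBigO_zero _ _
  refine ((IsBigO.of_bound K ((h2 z (h0.imp_right And.left) hz).mono fun q a => ?_)).add
    h3).congr_left fun q => sub_add_cancel _ _
  rwa [Real.norm_of_nonneg (zero_le_one.trans (hm _))]

namespace Ctx

variable (H : Ctx o C π t₀ N A p U t χ x₀ u q β)
include H

theorem bd_at (h : ChAt o C π t₀ σ z) (hb : Bd C U t β m a (σ (π t₀, z))) :
    (fun n => lg π t β σ n z - a n) =O[U] m :=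
  hb.2.comp_tendsto ((H.ch_to h).comp (tendsto_id.prodMk tendsto_const_nhds))

theorem growth (h : FC o C π t₀ N A p x₀ σ r j) (hG : Gr π U t β σ r s m al) (hm : ∀ n, 1 ≤ m n)
    {w : ℝ} (hw : Tendsto (fun n => al n / m n) U (𝓝 w)) (hb : Bd C U t β m a (σ (π t₀, r)))
    {g : ℂ → ℝ} (hg : ∀ z ≠ 0, ‖z‖ < r → Tendsto (fun q : α × V M =>
      (log ‖β q.1 q.2‖ - a q.1) / m q.1) (Fl C U t (σ (π t₀, z))) (𝓝 (g z))) :
    ∃ K, ∀ᶠ z in 𝓝[≠] 0, |g z - w * log ‖z‖| ≤ K := by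
  have hr := h.pos
  obtain ⟨K', h1⟩ := (H.bd_at (h.ordi r (.inl (Complex.ofReal_ne_zero.2 hr.ne'))
    (by rw [norm_r hr]; linarith)).2 hb).bound
  obtain ⟨-, K, h2⟩ := hG
  refine ⟨K + K' + |w * log r|, h.ev0.mono fun z ⟨z0, z1⟩ => ?_⟩
  have h3 : Tendsto (fun n => (n, z)) U (U ×ˢ 𝓝 z) := tendsto_id.prodMk tendsto_const_nhds
  have h4 := le_of_tendsto (b := K + K') (((hg z z0 z1).comp ((H.ch_to (h.ordi z (.inl z0)
    (by linarith)).2).comp h3)).sub (hw.mul_const (log (‖z‖ / r)))).abs (by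
      filter_upwards [h3.eventually (h2 z (.inl z0) z1), h1] with n a1 a2
      have a3 := one_pos.trans_le (hm n)
      rw [Real.norm_of_nonneg a3.le, Real.norm_eq_abs, abs_le] at a2
      rw [comp_apply, comp_apply, div_mul_eq_mul_div, ← sub_div, abs_div, abs_of_pos a3,
        div_le_iff₀ a3]
      simp only [lg, abs_le] at a1 a2 ⊢
      constructor <;> linarith)
  rw [Real.log_div (norm_ne_zero_iff.2 z0) hr.ne', abs_le] at h4
  have h5 := abs_le.1 (le_refl |w * log r|)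
  exact abs_le.2 ⟨by linarith, by linarith⟩

theorem exists_lim {Y : Type*} [TopologicalSpace Y] [Nonempty Y] {F : X → α × V M → Y}
    (h : ∀ y c, Ordi N x₀ y → Orb (p y) c → ∃ w, Tendsto (F y) (Fl C U t c) (𝓝 w)) :
    ∃ B : V M → Y, ∀ y c, Ordi N x₀ y → Orb (p y) c → Tendsto (F y) (Fl C U t c) (𝓝 (B c)) := by
  have h1 : ∀ c, ∃ w, ∀ y, Ordi N x₀ y → Orb (p y) c → Tendsto (F y) (Fl C U t c) (𝓝 w) :=
    fun c => by
      by_cases e : ∃ y, Ordi N x₀ y ∧ Orb (p y) c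
      · obtain ⟨y, a, b⟩ := e
        obtain ⟨w, hw⟩ := h y c a b
        exact ⟨w, fun y' _ b' => H.eq_of_sm a.1 b b' ▸ hw⟩
      · exact ⟨Classical.arbitrary Y, fun y a b => absurd ⟨y, a, b⟩ e⟩
  choose B hB using h1
  exact ⟨B, fun y c => hB c y⟩

theorem ev_orb (hx : Ordi N x₀ x) (h : Orb (p x) c) : ∃ σ : P × ℂ → V M, σ (π t₀, 0) = c ∧
    ChAt o C π t₀ σ 0 ∧ ∀ᶠ w in 𝓝 0, ∃ x, Orb (p x) (σ (π t₀, w)) ∧ ∀ k, x₀ k ≠ x := by
  obtain ⟨σ, rfl, h1⟩ := H.ch_exists hx.1 h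
  obtain ⟨j, rfl, h2⟩ := H.fc_sm hx.1 h1 h
  obtain ⟨r, h2⟩ := h2.exists
  exact ⟨σ, rfl, h1, (h2.ev (.inr hx) (by simpa using h2.pos)).mono fun w a => ⟨_, a.2.1, a.1.2⟩⟩

end Ctx

end One

variable (o C π t₀ N A p U t x₀ u β) in
/-- An atlas of the family. -/
structure Atl (σ : X → Bool → P × ℂ → V M) (r : X → ℝ) (j : X → Bool → ℂ → X) (τ : X → α → ℂ)
    (F : Finset X) : Prop where
  ctr : ∀ x, j x true 0 = x
  dc : ∀ x, DC o C π t₀ N A p U t x₀ u β (σ x) (r x) (j x) (τ x)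
  cov : ∀ y, ∃ x ∈ F, ∃ z, ‖z‖ < r x ∧ j x true z = y

variable {σ : X → Bool → P × ℂ → V M} {r : X → ℝ} {j : X → Bool → ℂ → X} {τ : X → α → ℂ}
  {F : Finset X}

/-- The maximum principle on a component. -/
theorem Atl.const (hA : Atl o C π t₀ N A p U t x₀ u β σ r j τ F) {h : X → ℝ}
    (hh : ∀ x z, z ≠ 0 ∨ Ordi N x₀ x → ‖z‖ ≤ r x → HarmonicAt (fun w => h (j x true w)) z) {x₁ : X}
    (hb : ∀ x ∈ F, x ∈ connectedComponent x₁ → ¬Ordi N x₀ x →
      ∃ K, ∀ᶠ z in 𝓝[≠] 0, h (j x true z) ≤ K) :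
    ∃ μ, ∀ y ∈ connectedComponent x₁, Ordi N x₀ y → h y = μ := by
  classical
  have fc := fun x => (hA.dc x).fc true
  have cv : ∀ y ∈ connectedComponent x₁, ∃ x ∈ F.filter (· ∈ connectedComponent x₁), ∃ z,
      ‖z‖ < r x ∧ j x true z = y := fun y hy => by
    obtain ⟨x, a, z, b, rfl⟩ := hA.cov y
    exact ⟨x, Finset.mem_filter.2 ⟨a, by
      have e := (fc x).comp (z := z) (by linarith [(fc x).pos])
      rw [hA.ctr] at e
      rw [connectedComponent_eq hy, ← connectedComponent_eq e]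
      exact mem_connectedComponent⟩, z, b, rfl⟩
  have h1 : ∀ x, ∃ z ∈ sphere (0 : ℂ) (r x), IsMaxOn (fun w => h (j x true w)) (sphere 0 (r x)) z :=
    fun x => (isCompact_sphere _ _).exists_isMaxOn (NormedSpace.sphere_nonempty.2 (fc x).pos.le)
      fun z hz => have := mem_sphere_zero_iff_norm.1 hz
        (hh x z (.inl (norm_pos_iff.1 (this ▸ (fc x).pos))) this.le).1.continuousAt.continuousWithinAt
  choose ζ h1 h2 using h1
  obtain ⟨x₂, h3, h4⟩ := Finset.exists_max_image _ (fun x => h (j x true (ζ x)))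
    (let ⟨x, a, _⟩ := cv x₁ mem_connectedComponent; ⟨x, a⟩)
  have h5 : ∀ y ∈ connectedComponent x₁, Ordi N x₀ y → h y ≤ h (j x₂ true (ζ x₂)) := by
    intro y hy ho
    obtain ⟨x, a, z, b, rfl⟩ := cv y hy
    have h6 : ∀ w : ℂ, ‖w‖ = r x → h (j x true w) ≤ h (j x₂ true (ζ x₂)) := fun w e =>
      (h2 x (mem_sphere_zero_iff_norm.2 e)).trans (h4 x a)
    by_cases e : Ordi N x₀ x
    · exact harm_max (ρ := -1) (fun w _ c => hh x w (.inr e) c) (fun w c =>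
        h6 w (c.resolve_left fun c => by linarith [norm_nonneg w])) (by linarith [norm_nonneg z]) b.le
    · obtain ⟨K, hK⟩ := hb x (Finset.mem_filter.1 a).1 (Finset.mem_filter.1 a).2 e
      exact punct_max (fun w c d => hh x w (.inl c) d) hK h6
        (fun c => e (by rwa [c, hA.ctr] at ho)) b.le
  have h6 : ‖ζ x₂‖ = r x₂ := mem_sphere_zero_iff_norm.1 (h1 x₂)
  have h7 : ‖ζ x₂‖ < 2 * r x₂ := by linarith [(fc x₂).pos]
  have h8 : j x₂ true (ζ x₂) ∈ connectedComponent x₁ := by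
    have e := (fc x₂).comp h7
    rwa [hA.ctr, ← connectedComponent_eq (Finset.mem_filter.1 h3).2] at e
  refine ⟨h (j x₂ true (ζ x₂)), fun y hy ho => ?_⟩
  refine (const_of_punct R (ev_ordi (N := N) (x₀ := x₀)) (f := fun y =>
    y ∈ connectedComponent x₁ → h y = h (j x₂ true (ζ x₂))) (fun y ho => ?_)
    ((fc x₂).ordi _ (.inl (norm_pos_iff.1 (h6 ▸ (fc x₂).pos))) h7).1 ho
    (connectedComponent_eq h8 ▸ hy)).mpr (fun _ => rfl) hy
  by_cases e : y ∈ connectedComponent x₁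
  swap
  · exact Eventually.mono (isClosed_connectedComponent.isOpen_compl.mem_nhds e) fun y' e' =>
      propext (iff_of_true (fun a => absurd a e') fun a => absurd a e)
  have a1 := hh y 0 (.inr ho) (by simpa using (fc y).pos.le)
  have a2 := (fc y).ev (z := 0) (.inr ((hA.ctr y).symm ▸ ho)) (by simpa using (fc y).pos)
  have a3 := (fc y).opn
  rw [hA.ctr] at a2 a3
  rw [← connectedComponent_eq e] at a2
  refine a3 (mem_map.2 ?_)
  by_cases e' : h y = h (j x₂ true (ζ x₂))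
  · filter_upwards [harm_loc a1 (a2.mono fun w b => by
      simpa only [hA.ctr, e'] using h5 _ b.2.2 b.1)] with w b
    exact propext (iff_of_true (fun _ => by rw [b, hA.ctr, e']) fun _ => e')
  · filter_upwards [a2, a1.1.continuousAt.eventually_ne (by rwa [hA.ctr])] with w b b'
    exact propext (iff_of_false (fun d => b' (d b.2.2)) fun d => e' (d e))

namespace Ctx

variable (H : Ctx o C π t₀ N A p U t χ x₀ u q β)
include H

theorem exists_atl : ∃ σ r j τ F, Atl o C π t₀ N A p U t x₀ u β σ r j τ F := by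
  choose σ r j τ h1 h2 using H.exists_dc
  obtain ⟨F, hF⟩ := CompactSpace.elim_nhds_subcover (fun x => j x true '' ball 0 (r x)) fun x => by
    have := ((h2 x).fc true).opn (image_mem_map (ball_mem_nhds _ ((h2 x).fc true).pos))
    rwa [h1] at this
  refine ⟨σ, r, j, τ, F, h1, h2, fun y => ?_⟩
  obtain ⟨x, a, z, b, e⟩ := mem_iUnion₂.1 (hF.ge (mem_univ y))
  exact ⟨x, a, z, by simpa using b, e⟩

theorem exists_a (hA : Atl o C π t₀ N A p U t x₀ u β σ r j τ F) (hm : ∀ n, 1 ≤ m n)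
    (ho : ∀ x ∈ F, ∀ b, Osc π U t β (σ x b) (r x) m) : ∃ a : X → α → ℝ, IsLocallyConstant a ∧
      ∀ y c, Ordi N x₀ y → Orb (p y) c → Bd C U t β m (a y) c := by
  have h1 : ∀ y, Ordi N x₀ y → ∃ a, Bd C U t β m a (p y) := fun y hy => by
    obtain ⟨x, a, z, b, rfl⟩ := hA.cov y
    obtain ⟨al, h1, h2, -⟩ := (hA.dc x).est m hm (ho x a)
    have fc := (hA.dc x).fc true
    have h3 : z ≠ 0 ∨ Ordi N x₀ (j x true 0) := (eq_or_ne z 0).symm.imp_right fun e : z = 0 =>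
      e ▸ hy
    have h4 : ‖z‖ < 2 * r x := by linarith [fc.pos]
    refine ⟨fun n => lg π t β (σ x true) n (r x), H.bd_orb hm (H.bd_of_ch hm (fc.ordi z h3 h4).2 
      (fc.orb z h4) hy.2 (h1.bigO fc.pos hm (h3.imp_right fun e => ⟨e, fun n => ?_⟩) b)) (fc.orb z h4).symm⟩
    rw [h2 e.1, extend_apply' _ _ _ fun ⟨k, hk⟩ => e.2 k hk]
    simp
  have h2 : ∀ v : ConnectedComponents X, ∃ a y, Ordi N x₀ y ∧ (y : ConnectedComponents X) = v ∧
      Bd C U t β m a (p y) := fun v => by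
    obtain ⟨x, rfl⟩ := ConnectedComponents.surjective_coe v
    have := R.neBot x
    obtain ⟨y, a1, a2⟩ := ((ev_ordi (N := N) (x₀ := x₀) x).and
      (nhdsWithin_le_nhds (ev_comp R x))).exists
    obtain ⟨a, a3⟩ := h1 y a1
    exact ⟨a, y, a1, ConnectedComponents.coe_eq_coe'.2 a2, a3⟩
  choose a b h2 h3 h4 using h2
  refine ⟨fun x => a x, (IsLocallyConstant.iff_eventually_eq _).2 fun x => (ev_comp R x).mono
    fun y e => congrArg a (ConnectedComponents.coe_eq_coe'.2 e), fun y c hy e => H.bd_orb hm ?_ e⟩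
  refine (const_of_punct R (ev_ordi (N := N) (x₀ := x₀)) (f := fun y' => Bd C U t β m (a y) (p y'))
    (fun x hx => ?_) (h2 y) hy (ConnectedComponents.coe_eq_coe'.1 (h3 y).symm)).mpr (h4 y)
  obtain ⟨a₀, h5⟩ := h1 x hx
  filter_upwards [(tends_br H.par.sec x).eventually h5.ev, R.src_nhds x] with y' a1 a2
  have a3 := H.bd_orb hm a1 (c' := p y') ⟨_, fun i => (A i).ne x y', br_e a2⟩
  exact propext ⟨fun e => h5.congr (H.bd_sub (H.par.mem _) a3 e),
    fun e => a3.congr (H.bd_sub (H.par.mem _) h5 e)⟩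

theorem not_tendsto (hA : Atl o C π t₀ N A p U t x₀ u β σ r j τ F) (hm : ∀ n, 1 ≤ m n)
    (ho : ∀ x ∈ F, ∀ b, Osc π U t β (σ x b) (r x) m) (hi : Tendsto m U atTop) {b : Bool}
    {ζ : α → ℂ} (hζ : ∀ᶠ n in U, r x / 2 ≤ ‖ζ n‖ ∧ ‖ζ n‖ ≤ r x ∧
      m n = 1 + |lg π t β (σ x b) n (ζ n) - lg π t β (σ x b) n (r x)|) : False := by
  classical
  obtain ⟨a, a1, a2⟩ := H.exists_a hA hm ho
  obtain ⟨B, hB⟩ := H.exists_lim (F := fun y q => (log ‖β q.1 q.2‖ - a y q.1) / m q.1)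
    fun y c hy e => by
      obtain ⟨σ, rfl, h1, h2⟩ := H.ev_orb hy e
      obtain ⟨g, -, h3⟩ := H.lim_log hm h1 h2 (a2 y _ hy e)
      exact ⟨_, h3.self_of_nhds⟩
  have hc : ∀ {x y}, y ∈ connectedComponent x → a y = a x := fun e =>
    a1.apply_eq_of_isPreconnected isPreconnected_connectedComponent e mem_connectedComponent
  have h1 : ∀ y c, Ordi N x₀ y → Orb (p y) c → B c = B (p y) := by
    rintro y _ hy ⟨s, hs, rfl⟩
    have := H.neBot (H.par.mem y)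
    refine tendsto_nhds_unique ((hB y _ hy ⟨s, hs, rfl⟩).comp (H.Fl_smul hs)) ((add_zero (B (p y)) ▸
      (hB y _ hy (Orb.refl _)).add ((tendsto_const_nhds (x := log ‖chz χ s‖)).div_atTop
        (hi.comp Fl_spec.1)) :).congr' ?_)
    filter_upwards [(a2 y _ hy (Orb.refl _)).1, H.hom_Fl (p y)] with w b1 b2
    simp only [comp_apply]
    rw [b2 s hs, norm_mul, Real.log_mul (norm_ne_zero_iff.2 (chz_ne hs)) (norm_ne_zero_iff.2 b1)]
    ring
  have h2 : ∀ {σ : P × ℂ → V M} {r j}, FC o C π t₀ N A p x₀ σ r j → ∀ z, z ≠ 0 ∨ Ordi N x₀ (j 0) →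
      ‖z‖ < 2 * r → Bd C U t β m (a (j 0)) (σ (π t₀, z)) ∧ Tendsto (fun q : α × V M =>
        (log ‖β q.1 q.2‖ - a (j 0) q.1) / m q.1) (Fl C U t (σ (π t₀, z))) (𝓝 (B (p (j z)))) :=
    fun fc z z1 z2 => by
      obtain ⟨b1, b2, b3⟩ := (fc.ev z1 z2).self_of_nhds
      rw [← hc b3, ← h1 _ _ b1 b2]
      exact ⟨a2 _ _ b1 b2, hB _ _ b1 b2⟩
  have h3 : ∀ {σ : P × ℂ → V M} {r j s al w}, FC o C π t₀ N A p x₀ σ r j → Gr π U t β σ r s m al →
      Tendsto (fun n => al n / m n) U (𝓝 w) →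
      ∃ K, ∀ᶠ z in 𝓝[≠] 0, |B (p (j z)) - w * log ‖z‖| ≤ K := fun fc g e =>
    H.growth fc g hm e (h2 fc _ (.inl (Complex.ofReal_ne_zero.2 fc.pos.ne'))
      (by rw [norm_r fc.pos]; linarith [fc.pos])).1 fun z z1 z2 =>
        (h2 fc z (.inl z1) (by linarith [fc.pos])).2
  have h4 : ∀ {σ : P × ℂ → V M} {r j}, FC o C π t₀ N A p x₀ σ r j →
      (fun n => lg π t β σ n r - a (j 0) n) =O[U] m := fun {σ r j} fc =>
    have e : (r : ℂ) ≠ 0 ∨ Ordi N x₀ (j 0) := .inl (Complex.ofReal_ne_zero.2 fc.pos.ne')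
    have e' : ‖(r : ℂ)‖ < 2 * r := by rw [norm_r fc.pos]; linarith [fc.pos]
    H.bd_at (fc.ordi _ e e').2 (h2 fc _ e e').1
  let NC : X → Prop := fun x => ¬∃ μ, ∀ y ∈ connectedComponent x, Ordi N x₀ y → B (p y) = μ
  have h5 : NC (j x b 0) := by
    rintro ⟨μ, hμ⟩
    have fc := (hA.dc x).fc b
    obtain ⟨z, z1, z2⟩ := (isCompact_closedBall (0 : ℂ) (r x)).ultrafilter_le_nhds' (U.map ζ)
      (hζ.mono fun n e => mem_closedBall_zero_iff.2 e.2.1)
    have z2 : Tendsto ζ U (𝓝 z) := z2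
    have key : ∀ (z : ℂ) (ζ : α → ℂ), 0 < ‖z‖ → ‖z‖ ≤ r x → Tendsto ζ U (𝓝 z) →
        Tendsto (fun n => (lg π t β (σ x b) n (ζ n) - a (j x b 0) n) / m n) U (𝓝 μ) :=
      fun z ζ z1 z2 z3 => by
        have z4 : ‖z‖ < 2 * r x := by linarith [fc.pos]
        have z5 := fc.ordi z (.inl (norm_pos_iff.1 z1)) z4
        have z6 := (h2 fc z (.inl (norm_pos_iff.1 z1)) z4).2.comp
          ((H.ch_to z5.2).comp (tendsto_id.prodMk z3))
        rwa [hμ _ (fc.comp z4) z5.1] at z6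
    have b1 := ((key z ζ ((half_pos fc.pos).trans_le (ge_of_tendsto z2.norm
      (hζ.mono fun n e => e.1))) (mem_closedBall_zero_iff.1 z1) z2).sub (key (r x) _
        (by rw [norm_r fc.pos]; exact fc.pos) (norm_r fc.pos).le tendsto_const_nhds)).abs
    have b2 := (tendsto_const_nhds (x := (1 : ℝ))).sub
      ((tendsto_const_nhds (x := (1 : ℝ))).div_atTop hi)
    refine absurd (tendsto_nhds_unique (b1.congr' (hζ.mono fun n e => ?_)) b2) (by simp)
    have b3 := one_pos.trans_le (hm n)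
    rw [← sub_div, sub_sub_sub_cancel_right, abs_div, abs_of_pos b3, ← sub_eq_of_eq_add' e.2.2]
    field_simp
  have h6 : ∀ y, NC y → ∃ x ∈ F.filter NC, a x = a y := fun y hy => by
    obtain ⟨x, b1, z, b2, rfl⟩ := hA.cov y
    have e := ((hA.dc x).fc true).comp (z := z) (by linarith [((hA.dc x).fc true).pos])
    rw [hA.ctr] at e
    exact ⟨x, Finset.mem_filter.2 ⟨b1, by simpa only [NC, connectedComponent_eq e] using hy⟩,
      (hc e).symm⟩
  obtain ⟨x₁, h7, h8⟩ := (Ultrafilter.eventually_exists_mem_iff (f := U)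
    (P := fun x n => ∀ x' ∈ F.filter NC, a x' n ≤ a x n) (F.filter NC).finite_toSet).1
    (.of_forall fun n => Finset.exists_max_image _ _ (let ⟨x, e, _⟩ := h6 _ h5; ⟨x, e⟩))
  refine (Finset.mem_filter.1 h7).2 (hA.const (h := fun y => B (p y)) (fun x z z1 z2 => ?_)
    fun x x1 x2 x3 => by_contra fun x4 => ?_)
  · have fc := (hA.dc x).fc true
    have z3 : ‖z‖ < 2 * r x := by linarith [fc.pos]
    rw [← hA.ctr x] at z1
    obtain ⟨g, g1, g2⟩ := H.lim_log hm (fc.ordi z z1 z3).2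
      ((fc.ev z1 z3).mono fun w e => ⟨_, e.2.1, e.1.2⟩) (h2 fc z z1 z3).1
    refine (harmonicAt_congr_nhds ?_).1 g1
    filter_upwards [g2, fc.ev z1 z3] with w b1 ⟨b2, b3, b4⟩
    have := H.neBot (H.mem b3)
    exact tendsto_nhds_unique b1 (hc b4 ▸ h1 _ _ b2 b3 ▸ hB _ _ b2 b3)
  obtain ⟨al, g1, g2, g3⟩ := (hA.dc x).est m hm (ho x x1)
  obtain ⟨w, hw⟩ := exists_ratio hm g1.1
  obtain ⟨K, hK⟩ := h3 ((hA.dc x).fc true) g1 hw
  have w0 : w < 0 := not_le.1 fun e => x4 ⟨K, by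
    filter_upwards [hK, tendsto_log_norm.eventually_le_atBot 0] with z b1 b2
    nlinarith [(abs_le.1 b1).2]⟩
  have hs : ¬Sm N (j x true 0) := fun e => w0.ne (tendsto_nhds_unique hw (by
    simpa only [g2 e] using tendsto_const_nhds.div_atTop hi))
  obtain ⟨g4, g5, g6⟩ := g3 hs
  have fc := (hA.dc x).fc false
  obtain ⟨K', hK'⟩ := h3 fc g4 (w := -w) (by simpa only [Pi.neg_apply, neg_div] using hw.neg)
  obtain ⟨x', b1, b2⟩ := h6 (j x false 0) fun ⟨μ, hμ⟩ => w0.ne (neg_eq_zero.1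
    (eq_zero_of_bdd (K := K' + |μ|) (by
      filter_upwards [hK', fc.ev0] with z b1 b2
      have b3 : ‖z‖ < 2 * r x := by linarith [fc.pos]
      rw [hμ _ (fc.comp b3) (fc.ordi z (.inl b2.1) b3).1, abs_le] at b1
      have := abs_le.1 (le_refl |μ|)
      exact abs_le.2 ⟨by linarith, by linarith⟩)))
  obtain ⟨L, hL⟩ := ((g6.sub (h4 ((hA.dc x).fc true))).add (h4 fc)).bound
  have b3 : ∀ᶠ n in U, τ x n ≠ 0 := by
    filter_upwards [g5, hw.eventually_ne w0.ne] with n c1 c2 e using c2 (by rw [c1 e, zero_div])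
  have b4 := hw.neg_mul_atBot w0 (tendsto_log_norm.comp
    (tendsto_nhdsWithin_iff.2 ⟨(hA.dc x).tau, b3⟩))
  obtain ⟨n, c1, c2, c3⟩ := (hL.and (h8.and (b4.eventually_gt_atTop L))).exists
  have c4 := one_pos.trans_le (hm n)
  have c5 := c2 x' b1
  rw [b2, ← hc x2] at c5
  rw [comp_apply, div_mul_eq_mul_div, lt_div_iff₀ c4] at c3
  rw [Real.norm_of_nonneg c4.le, Real.norm_eq_abs, hA.ctr] at c1
  linarith [(abs_le.1 c1).2]

theorem osc_one (hA : Atl o C π t₀ N A p U t x₀ u β σ r j τ F) :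
    ∀ x ∈ F, ∀ b, Osc π U t β (σ x b) (r x) 1 := fun x₁ hx b₁ => by
  have : Nonempty (F × Bool) := ⟨(⟨x₁, hx⟩, b₁)⟩
  let S : X → Set ℂ := fun x => {z | r x / 2 ≤ ‖z‖ ∧ ‖z‖ ≤ r x}
  have hS : ∀ x, IsCompact (S x) := fun x => (isCompact_closedBall (0 : ℂ) (r x)).of_isClosed_subset
    ((isClosed_le continuous_const continuous_norm).inter
      (isClosed_le continuous_norm continuous_const)) fun z hz => by simpa using hz.2
  let f : F × Bool → α → ℂ → ℝ := fun i n z =>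
    |lg π t β (σ i.1 i.2) n z - lg π t β (σ i.1 i.2) n (r i.1)|
  have h1 : ∀ᶠ n in U, ∀ i : F × Bool, ∃ z ∈ S i.1, IsMaxOn (f i n) (S i.1) z :=
    eventually_all.2 fun i => by
      have fc := (hA.dc i.1).fc i.2
      filter_upwards [ev_compact (hS i.1) (p := fun n z => AnalyticAt ℂ (fun w => β n (σ i.1 i.2
          (π (t n), w))) z ∧ β n (σ i.1 i.2 (π (t n), z)) ≠ 0) fun z hz =>
        have a1 : ‖z‖ < 2 * r i.1 := by linarith [fc.pos, hz.2]
        have a2 := fc.ordi z (.inl (norm_pos_iff.1 ((half_pos fc.pos).trans_le hz.1))) a1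
        H.ch_an a2.2 (fc.orb z a1) a2.1.2] with n hn
      exact (hS i.1).exists_isMaxOn ⟨r i.1, by rw [norm_r fc.pos]; linarith [fc.pos],
        (norm_r fc.pos).le⟩ fun z hz => ((((hn z hz).1.continuousAt.norm.log (norm_ne_zero_iff.2
          (hn z hz).2)).sub continuousAt_const).abs).continuousWithinAt
  obtain ⟨i, h2⟩ := (Ultrafilter.eventually_exists_iff (f := U) (P := fun (i : F × Bool) n =>
      ∃ z, z ∈ S i.1 ∧ ∀ i' : F × Bool, ∀ z' ∈ S i'.1, f i' n z' ≤ f i n z)).1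
    (h1.mono fun n hn => by
      choose ζ a1 a2 using hn
      obtain ⟨i, a3⟩ := Finite.exists_max fun i => f i n (ζ i)
      exact ⟨i, ζ i, a1 i, fun i' z' e => (a2 i' e).trans (a3 i')⟩)
  obtain ⟨ζ, h2⟩ := h2.choice
  by_contra hn
  refine H.not_tendsto hA (m := fun n => 1 + f i n (ζ n)) (fun n => le_add_of_nonneg_right
    (abs_nonneg _)) (fun x e b => ⟨1, h2.mono fun n a z z1 z2 => ?_⟩) (tendsto_atTop.2 fun K =>
      by_contra fun e => hn ⟨K, ?_⟩) (h2.mono fun n a => ⟨a.1.1, a.1.2, rfl⟩)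
  · linarith [a.2 (⟨x, e⟩, b) z ⟨z1, z2⟩]
  · filter_upwards [h2, Ultrafilter.eventually_not.2 e] with n a a' z z1 z2
    rw [Pi.one_apply, mul_one]
    linarith [a.2 (⟨x₁, hx⟩, b₁) z ⟨z1, z2⟩]

end Ctx

end Vale.Agent.P269.Clos
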